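import Mathlib.Algebra.MonoidAlgebra.Basic
import Mathlib.Algebra.MonoidAlgebra.Module
import Mathlib.Algebra.Module.LinearMap.Rat
import Mathlib.LinearAlgebra.Quotient.Basic
import Mathlib.LinearAlgebra.BilinearMap
import Mathlib.Data.Real.Basic
import Mathlib.Tactic

/-!
The rational group algebra of the additive reals and its augmentation filtration.
-/

namespace Vale.Agent.P058

noncomputable section

abbrev GA := AddMonoidAlgebra ℚ ℝ

def T (x : ℝ) : GA := AddMonoidAlgebra.single x 1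

lemma T_add (x y : ℝ) : T (x + y) = T x * T y := by simp [T, AddMonoidAlgebra.single_mul_single]

@[simp] lemma T_zero : T 0 = 1 := rfl

def D (h : ℝ) : GA := T h - 1

@[simp] lemma D_zero : D 0 = 0 := by simp [D]

lemma D_add (x y : ℝ) : D (x + y) = D x + D y + D x * D y := by
  simp only [D, T_add]; ring

def Fil (m : ℕ) : Submodule ℚ GA :=
  Submodule.span ℚ {ξ | ∃ (x : ℝ) (l : List ℝ), l.length = m ∧ ξ = T x * (l.map D).prod}

lemma gen_mem_Fil (x : ℝ) (l : List ℝ) : T x * (l.map D).prod ∈ Fil l.length :=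
  Submodule.subset_span ⟨x, l, rfl, rfl⟩

lemma Fil_map {m : ℕ} {V : Type*} [AddCommGroup V] [Module ℚ V] (f : GA →ₗ[ℚ] V)
    (N : Submodule ℚ V) (h : ∀ x (l : List ℝ), l.length = m → f (T x * (l.map D).prod) ∈ N)
    {ξ} (hξ : ξ ∈ Fil m) : f ξ ∈ N := by
  have : Fil m ≤ N.comap f := by
    rw [Fil, Submodule.span_le]
    rintro _ ⟨x, l, hl, rfl⟩
    exact h x l hl
  exact this hξ

lemma T_mul_mem {m : ℕ} (y : ℝ) {ξ} (hξ : ξ ∈ Fil m) : T y * ξ ∈ Fil m := by
  refine Fil_map (LinearMap.mulLeft ℚ (T y)) _ (fun x l hl => ?_) hξ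
  rw [LinearMap.mulLeft_apply, ← mul_assoc, ← T_add, ← hl]
  exact gen_mem_Fil _ _

lemma D_mul_mem {m : ℕ} (h : ℝ) {ξ} (hξ : ξ ∈ Fil m) : D h * ξ ∈ Fil (m + 1) := by
  refine Fil_map (LinearMap.mulLeft ℚ (D h)) _ (fun x l hl => ?_) hξ
  have := gen_mem_Fil x (h :: l)
  rw [List.length_cons, hl, List.map_cons, List.prod_cons] at this
  rw [LinearMap.mulLeft_apply, mul_left_comm]
  exact this

lemma one_mem_Fil : (1 : GA) ∈ Fil 0 := by simpa using gen_mem_Fil 0 []

lemma D_nsmul {m : ℕ} (h : ℝ) {ξ} (hξ : ξ ∈ Fil m) (n : ℕ) :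
    (D (n * h) - n * D h) * ξ ∈ Fil (m + 2) := by
  induction n with
  | zero => simp
  | succ n ih =>
    have : (D (((n + 1 : ℕ) : ℝ) * h) - ((n + 1 : ℕ) : GA) * D h) * ξ
        = (D (n * h) - n * D h) * ξ + D (n * h) * (D h * ξ) := by
      push_cast
      rw [add_mul, one_mul, D_add]; ring
    rw [this]
    exact Submodule.add_mem _ ih (D_mul_mem _ (D_mul_mem _ hξ))

def scl (c : ℝ) : GA →ₐ[ℚ] GA :=
  AddMonoidAlgebra.mapDomainAlgHom ℚ ℚ (AddMonoidHom.mulLeft c)

@[simp] lemma scl_T (c x : ℝ) : scl c (T x) = T (c * x) := by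
  simp [scl, T]

@[simp] lemma scl_D (c x : ℝ) : scl c (D x) = D (c * x) := by simp [D]

lemma natCast_mul_mem {m : ℕ} (n : ℕ) {ξ} (hξ : ξ ∈ Fil m) : (n : GA) * ξ ∈ Fil m := by
  rw [← nsmul_eq_mul]
  exact nsmul_mem hξ n

lemma scl_gen (n : ℕ) (x : ℝ) (l : List ℝ) :
    scl n (T x * (l.map D).prod) - (n ^ l.length : ℕ) • (T x * (l.map D).prod) ∈
      Fil (l.length + 1) := by
  induction l with
  | nil =>
    have h1 := D_mul_mem (n * x) one_mem_Fil
    have h2 := D_mul_mem x one_mem_Fil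
    have := Submodule.sub_mem _ h1 h2
    have e : scl n (T x * (([] : List ℝ).map D).prod) - (n ^ ([] : List ℝ).length : ℕ) •
      (T x * (([] : List ℝ).map D).prod) = D (n * x) * 1 - D x * 1 := by simp [D]
    rw [e]
    exact this
  | cons h l ih =>
    have h1 := D_mul_mem (n * h) ih
    have h2 := natCast_mul_mem (n ^ l.length) (D_nsmul h (gen_mem_Fil x l) n)
    have := Submodule.add_mem _ h1 h2
    have e : scl n (T x * ((h :: l).map D).prod) - (n ^ (h :: l).length : ℕ) •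
        (T x * ((h :: l).map D).prod) =
        D (n * h) * (scl n (T x * (l.map D).prod) - n ^ l.length • (T x * (l.map D).prod)) +
        (n ^ l.length : ℕ) * ((D (n * h) - n * D h) * (T x * (l.map D).prod)) := by
      simp only [List.map_cons, List.prod_cons, map_mul, scl_T, scl_D, List.length_cons,
        nsmul_eq_mul]
      push_cast
      ring
    rw [e]
    exact this

lemma scl_Fil {m : ℕ} (n : ℕ) {ξ} (hξ : ξ ∈ Fil m) :
    scl n ξ - (n ^ m : ℕ) • ξ ∈ Fil (m + 1) := by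
  refine Fil_map ((scl n).toLinearMap - (n ^ m : ℕ) • LinearMap.id) _ (fun x l hl => ?_) hξ
  subst hl
  exact scl_gen n x l

def aug : GA →ₐ[ℚ] ℚ := AddMonoidAlgebra.lift ℚ ℚ ℝ 1

@[simp] lemma aug_T (x : ℝ) : aug (T x) = 1 := by simp [aug, T]

@[simp] lemma aug_D (x : ℝ) : aug (D x) = 0 := by simp [D]

inductive PosA : GA → Prop
  | zero : PosA 0
  | gen (x : ℝ) : PosA (T x)
  | add {a b} : PosA a → PosA b → PosA (a + b)
  | smul {a} (q : ℚ) : 0 ≤ q → PosA a → PosA (q • a)

lemma PosA.mul {a b} (ha : PosA a) (hb : PosA b) : PosA (a * b) := by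
  induction ha with
  | zero => simpa using PosA.zero
  | gen x =>
    induction hb with
    | zero => simpa using PosA.zero
    | gen y => rw [← T_add]; exact PosA.gen _
    | add _ _ h1 h2 => rw [mul_add]; exact h1.add h2
    | smul q hq _ h => rw [mul_smul_comm]; exact h.smul q hq
  | add _ _ h1 h2 => rw [add_mul]; exact h1.add h2
  | smul q hq _ h => rw [smul_mul_assoc]; exact h.smul q hq

/-- the smoothing kernel -/
def ker1 (R : ℕ) (h : ℝ) : GA := ∑ j ∈ Finset.range R, T (j * h)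

lemma ker1_pos (R : ℕ) (h : ℝ) : PosA (ker1 R h) := by
  induction R with
  | zero => simpa [ker1] using PosA.zero
  | succ R ih => rw [ker1, Finset.sum_range_succ]; exact ih.add (PosA.gen _)

lemma aug_ker1 (R : ℕ) (h : ℝ) : aug (ker1 R h) = R := by simp [ker1]

lemma ker1_mul (R : ℕ) (h : ℝ) : ker1 R h * D h = D (R * h) := by
  induction R with
  | zero => simp [ker1]
  | succ R ih =>
    rw [ker1, Finset.sum_range_succ, add_mul, ← ker1, ih]
    push_cast
    rw [add_mul, one_mul, D_add]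
    simp only [D]
    ring

lemma exists_smooth (R : ℕ) (hR : 0 < R) (l : List ℝ) : ∃ w, PosA w ∧ aug w = 1 ∧
    w * (l.map D).prod = ((R : ℚ)⁻¹ ^ l.length) • scl R (l.map D).prod := by
  induction l with
  | nil => exact ⟨T 0, PosA.gen 0, by simp, by simp⟩
  | cons h l ih =>
    obtain ⟨w, hw, ew, e⟩ := ih
    have hR' : (R : ℚ) ≠ 0 := by positivity
    refine ⟨((R : ℚ)⁻¹ • ker1 R h) * w, ((ker1_pos R h).smul _ (by positivity)).mul hw, ?_, ?_⟩
    · simp [aug_ker1, ew, hR']
    · rw [List.map_cons, List.prod_cons, mul_mul_mul_comm, e, smul_mul_assoc, ker1_mul]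
      simp [pow_succ, mul_smul]

abbrev Q3 := GA ⧸ Fil 3

lemma DDD_mem (a b c : ℝ) : D a * D b * D c ∈ Fil 3 := by
  have := gen_mem_Fil 0 [a, b, c]
  simpa [mul_assoc] using this

def betaAux (a : ℝ) : ℝ →+ Q3 where
  toFun b := (Fil 3).mkQ (D a * D b)
  map_zero' := by simp
  map_add' b b' := by
    rw [← map_add, ← sub_eq_zero, ← map_sub, Submodule.mkQ_apply, Submodule.Quotient.mk_eq_zero]
    convert DDD_mem a b b' using 1
    rw [D_add]; ring

def beta : ℝ →ₗ[ℚ] ℝ →ₗ[ℚ] Q3 :=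
  AddMonoidHom.toRatLinearMap
    { toFun := fun a => (betaAux a).toRatLinearMap
      map_zero' := by ext; simp [betaAux]
      map_add' := fun a a' => by
        ext1 b
        change (Fil 3).mkQ (D (a + a') * D b) = (Fil 3).mkQ (D a * D b) + (Fil 3).mkQ (D a' * D b)
        rw [← map_add, ← sub_eq_zero, ← map_sub, Submodule.mkQ_apply,
          Submodule.Quotient.mk_eq_zero]
        convert DDD_mem a a' b using 1
        rw [D_add]; ring }

lemma beta_apply (a b : ℝ) : beta a b = (Fil 3).mkQ (D a * D b) := rfl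

end

end Vale.Agent.P058
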