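import Mathlib.Combinatorics.HalesJewett
import Mathlib.GroupTheory.Commutator.Basic
import Mathlib.Data.Real.Basic
import Mathlib.Algebra.Group.Pi.Lemmas
import Mathlib.Tactic

/-!
Group-theoretic core: from closure properties of a graded family `K` of tuples in a group `G`,
deduce that the trivial tuple lies in every positive degree.
-/

namespace Vale.Agent.P058

open Combinatorics
open scoped commutatorElement

/-- lower central series of a subgroup `N`, inside the ambient group -/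
def lcs {G : Type*} [Group G] (N : Subgroup G) : ℕ → Subgroup G
  | 0 => N
  | k + 1 => ⁅lcs N k, N⁆

structure CoreData (G : Type*) [Group G] (I : Type*) where
  K : ℝ → Set (I → G)
  H : Subgroup (I → G)
  N : Subgroup G
  mul : ∀ {t t' h h'}, h ∈ K t → h' ∈ K t' → h * h' ∈ K (t + t')
  diag : ∀ g : G, (fun _ => g) ∈ K 0
  nonempty : ∀ t, 0 ≤ t → (K t).Nonempty
  adapt : ∀ J : Set I, (∀ t, 0 < t → ∃ a ∈ K t, ∀ j ∈ J, a j = 1) →
    ∀ w ∈ H, ∀ t, 0 < t → ∃ w' ∈ K t, ∀ j ∈ J, w' j = w j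
  compact : ∀ (J : Set I) (τ : ℝ),
    (∀ (κ : Type) [Finite κ] (χ : G → κ), ∃ h ∈ K τ, ∀ j ∈ J, ∀ j' ∈ J, χ (h j) = χ (h j')) →
    ∃ h ∈ K τ, ∀ j ∈ J, h j = 1
  diagH : ∀ g : G, (fun _ => g) ∈ H
  pairH : ∀ i j, i ≠ j → ∀ m ∈ N, ∃ h ∈ H, h j = 1 ∧ h i = m
  pair : ∀ i j, ∀ t, 0 < t → ∃ h ∈ K t, h i = h j
  ratio : ∀ (k : ℕ) (γ η : ℝ), 0 < γ → 0 < η → ∃ δ, 0 ≤ δ ∧ δ ≤ η ∧ ∃ b ∈ K δ, ∃ σ ∈ K (δ + γ),
    ∀ i, b i * (σ i)⁻¹ ∈ lcs N k

namespace CoreData

variable {G : Type*} [Group G] {I : Type*} (D : CoreData G I)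

def Good (J : Set I) : Prop := ∀ t, 0 < t → ∃ a ∈ D.K t, ∀ j ∈ J, a j = 1

/-- saturation of `K` with respect to agreement on `J` -/
def K' (J : Set I) (t : ℝ) : Set (I → G) := {h | ∃ k ∈ D.K t, ∀ j ∈ J, h j = k j}

variable {D}

lemma K'_mul {J : Set I} {t t' h h'} (hh : h ∈ D.K' J t) (hh' : h' ∈ D.K' J t') :
    h * h' ∈ D.K' J (t + t') := by
  obtain ⟨k, hk, e⟩ := hh
  obtain ⟨k', hk', e'⟩ := hh'
  exact ⟨k * k', D.mul hk hk', fun j hj => by simp [e j hj, e' j hj]⟩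

lemma K'_of_K {J : Set I} {t h} (hh : h ∈ D.K t) : h ∈ D.K' J t := ⟨h, hh, fun _ _ => rfl⟩

lemma K'_diag {J : Set I} (g : G) : (fun _ => g) ∈ D.K' J 0 := K'_of_K (D.diag g)

lemma K'_congr {J : Set I} {t h h'} (hh : h ∈ D.K' J t) (e : ∀ j ∈ J, h' j = h j) :
    h' ∈ D.K' J t := by
  obtain ⟨k, hk, e'⟩ := hh
  exact ⟨k, hk, fun j hj => by rw [e j hj, e' j hj]⟩

lemma K'_conj {J : Set I} {t h} (hh : h ∈ D.K' J t) (g : G) :
    (fun i => g * h i * g⁻¹) ∈ D.K' J t := by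
  have := K'_mul (K'_mul (K'_diag (D := D) (J := J) g) hh) (K'_diag (D := D) (J := J) g⁻¹)
  rw [zero_add, add_zero] at this
  exact this

variable (D) in
/-- the normal core -/
def P (J : Set I) (t : ℝ) : Set (I → G) := {n | ∀ g : I → G, g * n * g⁻¹ ∈ D.K' J t}

lemma P_mul {J : Set I} {t t' h h'} (hh : h ∈ D.P J t) (hh' : h' ∈ D.P J t') :
    h * h' ∈ D.P J (t + t') := by
  intro g
  have := K'_mul (hh g) (hh' g)
  have e : g * h * g⁻¹ * (g * h' * g⁻¹) = g * (h * h') * g⁻¹ := by group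
  rwa [e] at this

lemma P_conj {J : Set I} {t h} (hh : h ∈ D.P J t) (g : I → G) : g * h * g⁻¹ ∈ D.P J t := by
  intro g'
  have := hh (g' * g)
  have e : g' * g * h * (g' * g)⁻¹ = g' * (g * h * g⁻¹) * g'⁻¹ := by group
  rwa [e] at this

lemma P_sub {J : Set I} {t h} (hh : h ∈ D.P J t) : h ∈ D.K' J t := by
  simpa using hh 1

lemma P_one {J : Set I} : (1 : I → G) ∈ D.P J 0 := by
  intro g
  have := K'_diag (D := D) (J := J) 1
  have e : g * 1 * g⁻¹ = fun _ => (1 : G) := by ext; simp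
  rwa [e]

lemma P_single {J : Set I} {t h} (hh : h ∈ D.K' J t) (j : I) (hj : ∀ l ∈ J, l ≠ j → h l = 1) :
    h ∈ D.P J t := by
  intro g
  refine K'_congr (K'_conj hh (g j)) fun l hl => ?_
  by_cases e : l = j
  · subst e; simp
  · simp [hj l hl e]

variable (D) in
/-- null elements -/
def Z (J : Set I) : Set (I → G) :=
  {κ | ∀ η, 0 < η → ∃ t, 0 ≤ t ∧ t ≤ η ∧ ∃ n ∈ D.P J t, n * κ ∈ D.K' J t}

lemma Z_one {J : Set I} : (1 : I → G) ∈ D.Z J := fun η hη =>
  ⟨0, le_rfl, hη.le, 1, P_one, by simpa using P_sub (P_one (D := D) (J := J))⟩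

lemma Z_mul {J : Set I} {a b} (ha : a ∈ D.Z J) (hb : b ∈ D.Z J) : a * b ∈ D.Z J := by
  intro η hη
  obtain ⟨t, ht0, ht, n, hn, hna⟩ := ha (η / 2) (by positivity)
  obtain ⟨t', ht0', ht', n', hn', hna'⟩ := hb (η / 2) (by positivity)
  refine ⟨t + t', by positivity, by linarith, n * (a * n' * a⁻¹), P_mul hn (P_conj hn' a), ?_⟩
  have := K'_mul hna hna'
  have e : n * a * (n' * b) = n * (a * n' * a⁻¹) * (a * b) := by group
  rwa [e] at this

lemma Z_congr {J : Set I} {a b} (ha : a ∈ D.Z J) (e : ∀ j ∈ J, b j = a j) : b ∈ D.Z J := by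
  intro η hη
  obtain ⟨t, ht0, ht, n, hn, hna⟩ := ha η hη
  exact ⟨t, ht0, ht, n, hn, K'_congr hna fun j hj => by simp [e j hj]⟩

lemma Z_conj {J : Set I} {a} (ha : a ∈ D.Z J) (g : G) : (fun i => g * a i * g⁻¹) ∈ D.Z J := by
  intro η hη
  obtain ⟨t, ht0, ht, n, hn, hna⟩ := ha η hη
  refine ⟨t, ht0, ht, _, P_conj hn (fun _ => g), ?_⟩
  refine K'_congr (K'_conj hna g) fun j _ => ?_
  simp [mul_assoc]

variable (D) in
/-- values at `i` of elements of `H` trivial on `S` -/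
def NN (i : I) (S : Set I) : Subgroup G where
  carrier := {g | ∃ h ∈ D.H, h i = g ∧ ∀ j ∈ S, h j = 1}
  one_mem' := ⟨1, D.H.one_mem, rfl, fun _ _ => rfl⟩
  mul_mem' := by
    rintro _ _ ⟨h, hh, rfl, e⟩ ⟨h', hh', rfl, e'⟩
    exact ⟨h * h', D.H.mul_mem hh hh', rfl, fun j hj => by simp [e j hj, e' j hj]⟩
  inv_mem' := by
    rintro _ ⟨h, hh, rfl, e⟩
    exact ⟨h⁻¹, D.H.inv_mem hh, rfl, fun j hj => by simp [e j hj]⟩

lemma lcs_le_NN [DecidableEq I] (i : I) : ∀ (m : ℕ) (S : Finset I), i ∉ S → S.card ≤ m + 1 →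
    lcs D.N m ≤ D.NN i S := by
  have h0 : ∀ g : G, g ∈ D.NN i ((∅ : Finset I) : Set I) := fun g =>
    ⟨fun _ => g, D.diagH g, rfl, by simp⟩
  have h1 : ∀ j, j ≠ i → D.N ≤ D.NN i {j} := fun j hj g hg => by
    obtain ⟨h, hh, e1, e2⟩ := D.pairH i j hj.symm g hg
    exact ⟨h, hh, e2, by simpa using e1⟩
  intro m
  induction m with
  | zero =>
    intro S hi hS
    rcases S.eq_empty_or_nonempty with rfl | ⟨j, hj⟩
    · exact fun g _ => h0 g
    · have : S = {j} := by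
        apply Finset.eq_singleton_iff_unique_mem.2 ⟨hj, fun x hx => ?_⟩
        exact Finset.card_le_one.1 (by simpa using hS) x hx j hj
      subst this
      have := h1 j (by rintro rfl; simp at hi)
      simpa [lcs] using this
  | succ m ih =>
    intro S hi hS
    rcases S.eq_empty_or_nonempty with rfl | ⟨j, hj⟩
    · exact fun g _ => h0 g
    · have hji : j ≠ i := by rintro rfl; exact hi hj
      have := ih (S.erase j) (fun h => hi (Finset.mem_of_mem_erase h))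
        (by rw [Finset.card_erase_of_mem hj]; omega)
      rw [lcs, Subgroup.commutator_le]
      intro g1 hg1 g2 hg2
      obtain ⟨h, hh, rfl, e⟩ := this hg1
      obtain ⟨h', hh', rfl, e'⟩ := h1 j hji hg2
      refine ⟨h * h' * h⁻¹ * h'⁻¹, ?_, by simp [commutatorElement_def], fun l hl => ?_⟩
      · exact D.H.mul_mem (D.H.mul_mem (D.H.mul_mem hh hh') (D.H.inv_mem hh)) (D.H.inv_mem hh')
      · by_cases hlj : l = j
        · subst hlj; simp [e' l (by simp)]
        · have : h l = 1 := e l (by simpa [hlj] using hl)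
          simp [this]

lemma comm_mem_Z [DecidableEq I] {J : Set I} (hJ : ∀ j ∈ J, D.Good (J \ {j})) {i j0 j1 : I}
    (h0 : j0 ∈ J) (h1 : j1 ∈ J) (h01 : j0 ≠ j1) (h0i : j0 ≠ i) (h1i : j1 ≠ i) {w α : G}
    (hw : w ∈ D.NN i {l | l ≠ i}) (hα : α ∈ D.N) : Pi.mulSingle i ⁅w, α⁆ ∈ D.Z J := by
  obtain ⟨h, hh, rfl, eh⟩ := hw
  obtain ⟨k, hk, ek, rfl⟩ := D.pairH i j1 h1i.symm α hα
  intro η hη
  have ht : 0 < η / 4 := by positivity
  obtain ⟨hp, hhp, ehp⟩ := D.adapt _ (hJ j1 h1) h hh _ ht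
  obtain ⟨hm, hhm, ehm⟩ := D.adapt _ (hJ j1 h1) h⁻¹ (D.H.inv_mem hh) _ ht
  obtain ⟨kp, hkp, ekp⟩ := D.adapt _ (hJ j0 h0) k hk _ ht
  obtain ⟨km, hkm, ekm⟩ := D.adapt _ (hJ j0 h0) k⁻¹ (D.H.inv_mem hk) _ ht
  have hA : hp * hm ∈ D.P J (η / 4 + η / 4) := by
    refine P_single (K'_of_K (D.mul hhp hhm)) j1 fun l hl hlj => ?_
    simp [ehp l ⟨hl, hlj⟩, ehm l ⟨hl, hlj⟩]
  have hB : kp * km ∈ D.P J (η / 4 + η / 4) := by
    refine P_single (K'_of_K (D.mul hkp hkm)) j0 fun l hl hlj => ?_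
    simp [ekp l ⟨hl, hlj⟩, ekm l ⟨hl, hlj⟩]
  refine ⟨_, by positivity, by linarith, _, P_mul hA hB, ?_⟩
  have hC := D.mul (D.mul (D.mul hhp hkp) hhm) hkm
  have e : η / 4 + η / 4 + η / 4 + η / 4 = η / 4 + η / 4 + (η / 4 + η / 4) := by ring
  rw [e] at hC
  refine K'_congr (K'_of_K hC) fun l hl => ?_
  by_cases hli : l = i
  · subst hli
    simp [ehp l ⟨hl, h1i.symm⟩, ehm l ⟨hl, h1i.symm⟩, ekp l ⟨hl, h0i.symm⟩, ekm l ⟨hl, h0i.symm⟩,
      commutatorElement_def]
  · have hl1 : h l = 1 := eh l hli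
    by_cases hl0 : l = j0
    · subst hl0
      simp [hli, ehp l ⟨hl, h01⟩, ehm l ⟨hl, h01⟩, hl1]
    · by_cases hl1' : l = j1
      · subst hl1'
        simp [hli, ekp l ⟨hl, h01.symm⟩, ekm l ⟨hl, h01.symm⟩, ek]
      · simp [hli, ehp l ⟨hl, hl1'⟩, ehm l ⟨hl, hl1'⟩, ekp l ⟨hl, hl0⟩, ekm l ⟨hl, hl0⟩, hl1]

variable (D) in
def Zi [DecidableEq I] (J : Set I) (i : I) : Subgroup G where
  carrier := {κ | Pi.mulSingle i κ ∈ D.Z J ∧ Pi.mulSingle i κ⁻¹ ∈ D.Z J}
  one_mem' := by simpa using Z_one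
  mul_mem' := by
    rintro a b ⟨ha, ha'⟩ ⟨hb, hb'⟩
    refine ⟨?_, ?_⟩
    · rw [Pi.mulSingle_mul]; exact Z_mul ha hb
    · rw [mul_inv_rev, Pi.mulSingle_mul]; exact Z_mul hb' ha'
  inv_mem' := by
    rintro a ⟨ha, ha'⟩
    exact ⟨ha', by simpa using ha⟩

lemma lcs_le_Zi [DecidableEq I] [Fintype I] {J : Finset I} (hJ : ∀ j ∈ J, D.Good (J \ {j}))
    (hc : 3 ≤ J.card) (i : I) : lcs D.N (Fintype.card I + 1) ≤ D.Zi J i := by
  have h2 : 1 < (J.erase i).card := by
    have := Finset.pred_card_le_card_erase (s := J) (a := i)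
    omega
  obtain ⟨j0, h0, j1, h1, h01⟩ := Finset.one_lt_card.1 h2
  rw [Finset.mem_erase] at h0 h1
  have hN := lcs_le_NN (D := D) i (Fintype.card I) (Finset.univ.erase i) (by simp)
    ((Finset.card_le_univ _).trans (by omega))
  have hset : ((Finset.univ.erase i : Finset I) : Set I) = {l | l ≠ i} := by ext; simp
  rw [hset] at hN
  rw [lcs, Subgroup.commutator_le]
  intro w hw α hα
  refine ⟨comm_mem_Z hJ h0.2 h1.2 h01 h0.1 h1.1 (hN hw) hα, ?_⟩
  have := Z_conj (comm_mem_Z hJ h0.2 h1.2 h01 h0.1 h1.1 ((D.NN _ _).inv_mem (hN hw)) hα) w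
  refine Z_congr this fun j _ => ?_
  by_cases e : j = i
  · subst e; simp [commutatorElement_def, mul_assoc]
  · simp [e]

lemma mem_Z_of_lcs [DecidableEq I] [Fintype I] {J : Finset I} (hJ : ∀ j ∈ J, D.Good (J \ {j}))
    (hc : 3 ≤ J.card) {κ : I → G} (hκ : ∀ i, κ i ∈ lcs D.N (Fintype.card I + 1)) :
    κ ∈ D.Z J := by
  have : ∀ s : Finset I, (fun i => if i ∈ s then κ i else 1) ∈ D.Z J := by
    intro s
    induction s using Finset.induction_on with
    | empty => exact Z_congr Z_one (by simp)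
    | insert a s ha ih =>
      have := Z_mul (lcs_le_Zi hJ hc a (hκ a)).1 ih
      refine Z_congr this fun j _ => ?_
      by_cases e : j = a
      · subst e; simp [ha]
      · simp [e]
  simpa using this Finset.univ

lemma gap [DecidableEq I] [Fintype I] {J : Finset I} (hJ : ∀ j ∈ J, D.Good (J \ {j}))
    (hc : 3 ≤ J.card) {γ η : ℝ} (hγ : 0 < γ) (hη : 0 < η) :
    ∃ δ, 0 ≤ δ ∧ δ ≤ η ∧ ∃ n ∈ D.K' J δ, n ∈ D.K' J (δ + γ) := by
  obtain ⟨δ, h0, h1, b, hb, σ, hσ, e⟩ := D.ratio (Fintype.card I + 1) γ (η / 2) hγ (by positivity)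
  have hZ := mem_Z_of_lcs hJ hc (κ := b * σ⁻¹) e
  obtain ⟨t, ht0, ht, n, hn, hn'⟩ := hZ (η / 2) (by positivity)
  refine ⟨t + δ, by positivity, by linarith, n * b, K'_mul (P_sub hn) (K'_of_K hb), ?_⟩
  have := K'_mul hn' (K'_of_K (J := J) hσ)
  have e2 : n * (b * σ⁻¹) * σ = n * b := by group
  rwa [e2, ← add_assoc] at this

lemma multi_gap {J : Set I}
    (hg : ∀ γ η : ℝ, 0 < γ → 0 < η → ∃ δ, 0 ≤ δ ∧ δ ≤ η ∧ ∃ n ∈ D.K' J δ, n ∈ D.K' J (δ + γ))
    (γ : ℕ → ℝ) : ∀ (N : ℕ), (∀ m < N, 0 < γ m) → ∀ δ, 0 < δ →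
      ∃ n ∈ D.K' J δ, ∀ m < N, n ∈ D.K' J (δ + γ m) := by
  intro N
  induction N with
  | zero =>
    intro _ δ hδ
    obtain ⟨n, hn⟩ := D.nonempty δ hδ.le
    exact ⟨n, K'_of_K hn, by simp⟩
  | succ N ih =>
    intro hγ δ hδ
    obtain ⟨δ1, h0, h1, n1, hn1, hn1'⟩ := hg (γ N) (δ / 2) (hγ N (by omega)) (by positivity)
    obtain ⟨n2, hn2, hn2'⟩ := ih (fun m hm => hγ m (by omega)) (δ - δ1) (by linarith)
    refine ⟨n1 * n2, ?_, fun m hm => ?_⟩
    · have := K'_mul hn1 hn2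
      rwa [add_sub_cancel] at this
    · rcases Nat.lt_succ_iff_lt_or_eq.1 hm with hm | rfl
      · have := K'_mul hn1 (hn2' m hm)
        rwa [show δ1 + (δ - δ1 + γ m) = δ + γ m by ring] at this
      · have := K'_mul hn1' hn2
        rwa [show δ1 + γ m + (δ - δ1) = δ + γ m by ring] at this

lemma line_prod {J : Set I} {n : I → G} {δ : ℝ} (hn : n ∈ D.K' J δ) (L : List (Option I)) :
    (L.map fun o => fun i => n (o.getD i)).prod ∈ D.K' J (L.countP (·.isNone) * δ) ∧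
    ∀ γ, n ∈ D.K' J (δ + γ) → 0 < L.countP (·.isNone) →
      (L.map fun o => fun i => n (o.getD i)).prod ∈ D.K' J (L.countP (·.isNone) * δ + γ) := by
  induction L with
  | nil =>
    refine ⟨?_, by simp⟩
    simpa using P_sub (P_one (D := D) (J := J))
  | cons o L ih =>
    cases o with
    | none =>
      refine ⟨?_, fun γ hγ _ => ?_⟩
      · have := K'_mul hn ih.1
        simp only [List.map_cons, List.prod_cons, Option.getD_none, List.countP_cons,
          Option.isNone_none, if_true]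
        push_cast
        rwa [show δ + (L.countP (·.isNone) : ℝ) * δ = (L.countP (·.isNone) + 1) * δ by ring] at this
      · have := K'_mul hγ ih.1
        simp only [List.map_cons, List.prod_cons, Option.getD_none, List.countP_cons,
          Option.isNone_none, if_true]
        push_cast
        rwa [show δ + γ + (L.countP (·.isNone) : ℝ) * δ = (L.countP (·.isNone) + 1) * δ + γ by
          ring] at this
    | some c =>
      refine ⟨?_, fun γ hγ hpos => ?_⟩
      · have := K'_mul (K'_diag (D := D) (J := J) (n c)) ih.1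
        simpa using this
      · have := K'_mul (K'_diag (D := D) (J := J) (n c)) (ih.2 γ hγ (by simpa using hpos))
        simpa using this

lemma good_of_gap [Finite I] {J : Set I}
    (hg : ∀ γ η : ℝ, 0 < γ → 0 < η → ∃ δ, 0 ≤ δ ∧ δ ≤ η ∧ ∃ n ∈ D.K' J δ, n ∈ D.K' J (δ + γ)) :
    D.Good J := by
  intro τ hτ
  refine D.compact J τ fun κ _ χ => ?_
  obtain ⟨ι, _, hι⟩ := Line.exists_mono_in_high_dimension I κ
  set N := Fintype.card ι
  set δ := τ / (N + 1) with hδ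
  have hδ0 : 0 < δ := by positivity
  have hτδ : τ = (N + 1) * δ := by rw [hδ]; field_simp
  obtain ⟨n, hn, hn'⟩ := multi_gap hg (fun m => τ - m * δ) (N + 1) (fun m hm => by
    have : (m : ℝ) < N + 1 := by exact_mod_cast hm
    nlinarith) δ hδ0
  set l := (Finset.univ : Finset ι).toList
  obtain ⟨ℓ, c, hc⟩ := hι fun ω => χ (l.map fun k => n (ω k)).prod
  set L := l.map ℓ.idxFun with hL
  have hpos : 0 < L.countP (·.isNone) := by
    obtain ⟨k, hk⟩ := ℓ.proper
    rw [List.countP_pos_iff]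
    exact ⟨none, List.mem_map.2 ⟨k, by simp [l], hk⟩, rfl⟩
  have hle : L.countP (·.isNone) < N + 1 := by
    have := List.countP_le_length (p := fun o : Option I => o.isNone) (l := L)
    have h2 : L.length = N := by simp [hL, l, N]
    omega
  have := (line_prod hn L).2 _ (hn' _ hle) hpos
  rw [add_sub_cancel] at this
  obtain ⟨k, hk, e⟩ := this
  refine ⟨k, hk, fun j hj j' hj' => ?_⟩
  have key : ∀ i, (L.map fun o => fun i => n (o.getD i)).prod i
      = (l.map fun k => n (ℓ i k)).prod := by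
    intro i
    have := map_list_prod (Pi.evalMonoidHom (fun _ : I => G) i)
      (L.map fun o => fun i => n (o.getD i))
    simp only [Pi.evalMonoidHom_apply] at this
    rw [this, hL]
    simp only [List.map_map]
    rfl
  rw [← e j hj, ← e j' hj', key, key]
  exact (hc j).trans (hc j').symm

theorem good_all [Fintype I] (J : Finset I) : D.Good J := by
  classical
  induction h : J.card using Nat.strong_induction_on generalizing J with
  | _ m ih =>
    by_cases hc : 3 ≤ J.card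
    · refine good_of_gap fun γ η hγ hη => gap (fun j hj => ?_) hc hγ hη
      have := ih (J.erase j).card (by rw [Finset.card_erase_of_mem hj]; omega) _ rfl
      simpa using this
    · intro t ht
      rcases J.eq_empty_or_nonempty with rfl | ⟨i, hi⟩
      · obtain ⟨n, hn⟩ := D.nonempty t ht.le
        exact ⟨n, hn, by simp⟩
      · have : ∃ j, ∀ l ∈ J, l = i ∨ l = j := by
          rcases (J.erase i).eq_empty_or_nonempty with h0 | ⟨j, hj⟩
          · refine ⟨i, fun l hl => Or.inl ?_⟩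
            by_contra hne
            have : l ∈ J.erase i := Finset.mem_erase.2 ⟨hne, hl⟩
            simp [h0] at this
          · refine ⟨j, fun l hl => ?_⟩
            by_cases hne : l = i
            · exact Or.inl hne
            · right
              have h1 : (J.erase i).card ≤ 1 := by rw [Finset.card_erase_of_mem hi]; omega
              exact Finset.card_le_one.1 h1 l (Finset.mem_erase.2 ⟨hne, hl⟩) j hj
        obtain ⟨j, hj⟩ := this
        obtain ⟨n, hn, e⟩ := D.pair i j t ht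
        refine ⟨n * fun _ => (n i)⁻¹, by simpa using D.mul hn (D.diag (n i)⁻¹), fun l hl => ?_⟩
        rcases hj l hl with rfl | rfl
        · simp
        · simp [e]

end CoreData

end Vale.Agent.P058
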