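import Mathlib.GroupTheory.FreeGroup.Basic
import Mathlib.GroupTheory.QuotientGroup.Basic
import Vale.Agent.P058.Core

/-!
The power endomorphism of a free group acts on the `k`-th lower central quotient as a power map;
this lifts relations from the abelianization to every nilpotent quotient.
-/

namespace Vale.Agent.P058

open scoped commutatorElement

instance lcs_top_normal {F : Type*} [Group F] (k : ℕ) : (lcs (⊤ : Subgroup F) k).Normal := by
  induction k with
  | zero => exact inferInstanceAs (⊤ : Subgroup F).Normal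
  | succ k ih => exact inferInstanceAs (⁅lcs (⊤ : Subgroup F) k, (⊤ : Subgroup F)⁆).Normal

lemma comm_pow_left {Q : Type*} [Group Q] {x y : Q} (h : ∀ z, Commute ⁅x, y⁆ z) (m : ℕ) :
    ⁅x ^ m, y⁆ = ⁅x, y⁆ ^ m := by
  induction m with
  | zero => simp
  | succ m ih =>
    have : ⁅x ^ (m + 1), y⁆ = x * ⁅x ^ m, y⁆ * x⁻¹ * ⁅x, y⁆ := by
      simp only [commutatorElement_def, pow_succ']; group
    rw [this, ih, ← ((h x).pow_left m).eq, pow_succ]
    group

lemma comm_mul_right {Q : Type*} [Group Q] {x : Q} (h : ∀ y z : Q, Commute ⁅x, y⁆ z) (y y' : Q) :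
    ⁅x, y * y'⁆ = ⁅x, y⁆ * ⁅x, y'⁆ := by
  have : ⁅x, y * y'⁆ = ⁅x, y⁆ * (y * ⁅x, y'⁆) * y⁻¹ := by
    simp only [commutatorElement_def]; group
  rw [this, ← (h y' y).eq]
  group

lemma central_of_mem {F : Type*} [Group F] (k : ℕ) {w : F} (hw : w ∈ lcs (⊤ : Subgroup F) k)
    (z : F ⧸ lcs (⊤ : Subgroup F) (k + 1)) : Commute (QuotientGroup.mk w) z := by
  obtain ⟨z, rfl⟩ := QuotientGroup.mk_surjective z
  rw [← commutatorElement_eq_one_iff_commute]
  have : ((⁅w, z⁆ : F) : F ⧸ lcs (⊤ : Subgroup F) (k + 1)) = 1 := by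
    rw [QuotientGroup.eq_one_iff]
    exact Subgroup.commutator_mem_commutator hw (Subgroup.mem_top _)
  simpa [commutatorElement_def] using this

def powEnd {Λ : Type*} (n : ℕ) : FreeGroup Λ →* FreeGroup Λ :=
  FreeGroup.lift fun y => FreeGroup.of y ^ n

lemma powEnd_mem {Λ : Type*} (n k : ℕ) {w : FreeGroup Λ} (hw : w ∈ lcs ⊤ k) :
    powEnd n w ∈ lcs (⊤ : Subgroup (FreeGroup Λ)) k := by
  induction k generalizing w with
  | zero => exact Subgroup.mem_top _
  | succ k ih =>
    have : lcs (⊤ : Subgroup (FreeGroup Λ)) (k + 1) ≤ (lcs ⊤ (k + 1)).comap (powEnd n) := by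
      rw [lcs, Subgroup.commutator_le]
      intro a ha b _
      rw [Subgroup.mem_comap, map_commutatorElement]
      exact Subgroup.commutator_mem_commutator (ih ha) (Subgroup.mem_top _)
    exact this hw

lemma powEnd_lcs {Λ : Type*} (n k : ℕ) {w : FreeGroup Λ} (hw : w ∈ lcs ⊤ k) :
    (QuotientGroup.mk (powEnd n w) : FreeGroup Λ ⧸ lcs (⊤ : Subgroup (FreeGroup Λ)) (k + 1))
      = QuotientGroup.mk w ^ (n ^ (k + 1)) := by
  induction k generalizing w with
  | zero =>
    have hc := fun (x : FreeGroup Λ) => central_of_mem 0 (w := x) (Subgroup.mem_top _)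
    induction w using FreeGroup.induction_on with
    | C1 => simp
    | of y => simp [powEnd]
    | inv_of y _ => simp [powEnd]
    | mul x y hx hy =>
      rw [map_mul, QuotientGroup.mk_mul, hx (Subgroup.mem_top _), hy (Subgroup.mem_top _),
        QuotientGroup.mk_mul, (hc x _).mul_pow]
  | succ k ih =>
    let π := QuotientGroup.mk' (lcs (⊤ : Subgroup (FreeGroup Λ)) (k + 2))
    let W : Subgroup (FreeGroup Λ) :=
      { carrier := {w | w ∈ lcs (⊤ : Subgroup (FreeGroup Λ)) (k + 1) ∧
          π (powEnd n w) = π w ^ (n ^ (k + 2))}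
        one_mem' := ⟨Subgroup.one_mem _, by simp⟩
        mul_mem' := by
          rintro a b ⟨ha, ea⟩ ⟨hb, eb⟩
          refine ⟨Subgroup.mul_mem _ ha hb, ?_⟩
          rw [map_mul, map_mul, ea, eb, map_mul]
          exact ((central_of_mem (k + 1) ha _).mul_pow _).symm
        inv_mem' := by
          rintro a ⟨ha, ea⟩
          exact ⟨Subgroup.inv_mem _ ha, by rw [map_inv, map_inv, ea, map_inv, inv_pow]⟩ }
    have : lcs (⊤ : Subgroup (FreeGroup Λ)) (k + 1) ≤ W := by
      rw [lcs, Subgroup.commutator_le]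
      intro a ha b _
      refine ⟨Subgroup.commutator_mem_commutator ha (Subgroup.mem_top _), ?_⟩
      have hcen : ∀ x ∈ lcs (⊤ : Subgroup (FreeGroup Λ)) k,
          ∀ y z : FreeGroup Λ ⧸ lcs (⊤ : Subgroup (FreeGroup Λ)) (k + 2), Commute ⁅π x, y⁆ z := by
        intro x hx y z
        obtain ⟨y, rfl⟩ := QuotientGroup.mk_surjective y
        have := central_of_mem (k + 1)
          (Subgroup.commutator_mem_commutator hx (Subgroup.mem_top y)) z
        simpa [π, commutatorElement_def] using this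
      have h1 : ∀ y : FreeGroup Λ, ⁅π a, π (powEnd n y)⁆ = ⁅π a, π y⁆ ^ n := by
        intro y
        have hp : ∀ (y : FreeGroup Λ ⧸ lcs (⊤ : Subgroup (FreeGroup Λ)) (k + 2)) (m : ℕ),
            ⁅π a, y ^ m⁆ = ⁅π a, y⁆ ^ m := by
          intro y m
          induction m with
          | zero => simp
          | succ m ih => rw [pow_succ, comm_mul_right (hcen a ha), ih, pow_succ]
        have hi : ∀ y : FreeGroup Λ ⧸ lcs (⊤ : Subgroup (FreeGroup Λ)) (k + 2), ⁅π a, y⁻¹⁆ = ⁅π a, y⁆⁻¹ := by
          intro y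
          have := comm_mul_right (hcen a ha) y⁻¹ y
          rw [inv_mul_cancel, commutatorElement_one_right] at this
          exact eq_inv_of_mul_eq_one_left this.symm
        induction y using FreeGroup.induction_on with
        | C1 => simp
        | of y => simp [powEnd, hp]
        | inv_of y hy => rw [map_inv, map_inv, hi, hy, map_inv, hi, inv_pow]
        | mul x y hx hy =>
          rw [map_mul, map_mul, comm_mul_right (hcen a ha), hx, hy, map_mul,
            comm_mul_right (hcen a ha), (hcen a ha _ _).mul_pow]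
      obtain ⟨z, hz, ez⟩ : ∃ z ∈ lcs (⊤ : Subgroup (FreeGroup Λ)) (k + 1),
          powEnd n a = a ^ (n ^ (k + 1)) * z := by
        refine ⟨(a ^ (n ^ (k + 1)))⁻¹ * powEnd n a, ?_, by group⟩
        rw [← QuotientGroup.eq, ih ha]
        simp
      have hzc := central_of_mem (k + 1) hz
      have h2 : ∀ x y : FreeGroup Λ ⧸ lcs (⊤ : Subgroup (FreeGroup Λ)) (k + 2),
          ⁅x * π z, y⁆ = ⁅x, y⁆ := by
        intro x y
        have : π z * y = y * π z := (hzc y).eq
        simp only [commutatorElement_def, mul_assoc, mul_inv_rev]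
        rw [← mul_assoc (π z), this]
        group
      rw [map_commutatorElement, map_commutatorElement, ez, map_mul, h2, map_pow,
        comm_pow_left (hcen a ha _), h1, map_commutatorElement, ← pow_mul, ← pow_succ']
    exact (this hw).2

def word {Λ C : Type*} (f : C → Λ) (L : List C) : FreeGroup Λ :=
  (L.map fun c => FreeGroup.of (f c)).prod

@[simp] lemma word_nil {Λ C : Type*} (f : C → Λ) : word f [] = 1 := rfl

@[simp] lemma word_cons {Λ C : Type*} (f : C → Λ) (c : C) (L : List C) :
    word f (c :: L) = FreeGroup.of (f c) * word f L := by simp [word]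

@[simp] lemma word_append {Λ C : Type*} (f : C → Λ) (L L' : List C) :
    word f (L ++ L') = word f L * word f L' := by simp [word]

def rep {C : Type*} (n : ℕ) (L : List C) : List C := (List.replicate n L).flatten

def stretch {C : Type*} (n : ℕ) (L : List C) : List C := L.flatMap (List.replicate n)

lemma word_rep {Λ C : Type*} (f : C → Λ) (n : ℕ) (L : List C) :
    word f (rep n L) = word f L ^ n := by
  induction n with
  | zero => simp [rep]
  | succ n ih =>
    have : rep (n + 1) L = L ++ rep n L := by simp [rep, List.replicate_succ]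
    rw [this, word_append, ih, pow_succ']

lemma word_stretch {Λ C : Type*} (f : C → Λ) (n : ℕ) (L : List C) :
    word f (stretch n L) = powEnd n (word f L) := by
  induction L with
  | nil => simp [stretch]
  | cons c L ih =>
    have : stretch n (c :: L) = List.replicate n c ++ stretch n L := by simp [stretch]
    rw [this, word_append, ih, word_cons, map_mul]
    simp [word, powEnd]

lemma sum_rep {C Γ : Type*} [AddCommMonoid Γ] (g : C → Γ) (n : ℕ) (L : List C) :
    ((rep n L).map g).sum = n • (L.map g).sum := by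
  induction n with
  | zero => simp [rep]
  | succ n ih =>
    have : rep (n + 1) L = L ++ rep n L := by simp [rep, List.replicate_succ]
    rw [this, List.map_append, List.sum_append, ih, succ_nsmul']

lemma sum_stretch {C Γ : Type*} [AddCommMonoid Γ] (g : C → Γ) (n : ℕ) (L : List C) :
    ((stretch n L).map g).sum = n • (L.map g).sum := by
  induction L with
  | nil => simp [stretch]
  | cons c L ih =>
    have : stretch n (c :: L) = List.replicate n c ++ stretch n L := by simp [stretch]
    rw [this, List.map_append, List.sum_append, ih]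
    simp

/-- pairs of positive words agreeing modulo the `k`-th term, with a large gap -/
def Ratio {Λ C I Γ : Type*} [AddCommMonoid Γ] (ℓ : I → C → Λ) (gr : C → Γ) (sc : ℝ →+ Γ)
    (sz : C → ℝ) (k : ℕ) : Prop :=
  ∀ η, 0 < η → ∃ (b σ : List C) (γ : ℝ), 0 < γ ∧ (σ.map gr).sum = (b.map gr).sum + sc γ ∧
    (b.map sz).sum ≤ η * γ ∧ ∀ i, word (ℓ i) b * (word (ℓ i) σ)⁻¹ ∈ lcs ⊤ k

lemma exists_scale {k : ℕ} (hk : 1 ≤ k) {η γ B A : ℝ} (hη : 0 < η) (hγ : 0 < γ)
    (hB : B ≤ η / 4 * γ) : ∃ n : ℕ, 0 < ((n : ℝ) ^ (k + 1) - n) ∧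
      (n : ℝ) ^ (k + 1) * B + n * A ≤ η * (((n : ℝ) ^ (k + 1) - n) * γ) := by
  obtain ⟨n, hn⟩ := exists_nat_ge (max 2 (4 * A / (η * γ)))
  have h2 : (2 : ℝ) ≤ n := le_trans (le_max_left _ _) hn
  have hA : 4 * A ≤ n * (η * γ) := by
    have := le_trans (le_max_right _ _) hn
    rwa [div_le_iff₀ (by positivity)] at this
  have hp : (n : ℝ) * n ≤ (n : ℝ) ^ (k + 1) := by
    rw [← sq]
    exact pow_le_pow_right₀ (by linarith) (by omega)
  set m := (n : ℝ) ^ (k + 1)
  have hηγ : 0 < η * γ := by positivity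
  refine ⟨n, by nlinarith, ?_⟩
  have h3 : m * B ≤ m * (η / 4 * γ) := mul_le_mul_of_nonneg_left hB (by nlinarith)
  have h4 : n * (4 * A) ≤ n * (n * (η * γ)) := mul_le_mul_of_nonneg_left hA (by linarith)
  have h5 : (n : ℝ) * n * (η * γ) ≤ m * (η * γ) := mul_le_mul_of_nonneg_right hp hηγ.le
  have h6 : 2 * n * (η * γ) ≤ m * (η * γ) := mul_le_mul_of_nonneg_right (by nlinarith) hηγ.le
  nlinarith

theorem Ratio.succ {Λ C I Γ : Type*} [AddCommGroup Γ] {ℓ : I → C → Λ} {gr : C → Γ}
    {sc : ℝ →+ Γ} {sz : C → ℝ} {k : ℕ} (hk : 1 ≤ k) (h : Ratio ℓ gr sc sz k) :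
    Ratio ℓ gr sc sz (k + 1) := by
  intro η hη
  obtain ⟨b, σ, γ, hγ, e, hb, hw⟩ := h (η / 4) (by positivity)
  obtain ⟨n, hn0, hn⟩ := exists_scale hk (A := (σ.map sz).sum) hη hγ hb
  refine ⟨rep (n ^ (k + 1)) b ++ stretch n σ, rep (n ^ (k + 1)) σ ++ stretch n b,
    ((n : ℝ) ^ (k + 1) - n) * γ, by positivity, ?_, ?_, fun i => ?_⟩
  · simp only [List.map_append, List.sum_append, sum_rep, sum_stretch, e]
    have : sc (((n : ℝ) ^ (k + 1) - n) * γ) = (n ^ (k + 1)) • sc γ - n • sc γ := by
      rw [← map_nsmul, ← map_nsmul, ← map_sub]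
      congr 1
      simp [sub_mul]
    rw [this]
    simp only [smul_add]
    abel
  · simp only [List.map_append, List.sum_append, sum_rep, sum_stretch, nsmul_eq_mul]
    push_cast
    exact hn
  · rw [← QuotientGroup.eq_one_iff]
    simp only [word_append, word_rep, word_stretch]
    obtain ⟨ζ, hζ, eζ⟩ : ∃ ζ ∈ lcs (⊤ : Subgroup (FreeGroup Λ)) k,
        word (ℓ i) b = ζ * word (ℓ i) σ := ⟨_, hw i, by group⟩
    have hc := central_of_mem k hζ
    rw [eζ]
    simp only [map_mul, QuotientGroup.mk_mul, QuotientGroup.mk_inv, QuotientGroup.mk_pow,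
      powEnd_lcs n k hζ]
    rw [(hc _).mul_pow, ((hc _).pow_left _).eq, mul_assoc _ _ (QuotientGroup.mk _),
      mul_inv_cancel]

theorem Ratio.all {Λ C I Γ : Type*} [AddCommGroup Γ] {ℓ : I → C → Λ} {gr : C → Γ}
    {sc : ℝ →+ Γ} {sz : C → ℝ} (h : Ratio ℓ gr sc sz 1) (k : ℕ) : Ratio ℓ gr sc sz k := by
  have : ∀ k, Ratio ℓ gr sc sz (k + 1) := by
    intro k
    induction k with
    | zero => exact h
    | succ k ih => exact ih.succ (by omega)
  cases k with
  | zero =>
    intro η hη
    obtain ⟨b, σ, γ, h1, h2, h3, _⟩ := h η hη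
    exact ⟨b, σ, γ, h1, h2, h3, fun _ => Subgroup.mem_top _⟩
  | succ k => exact this k

lemma word_perm {Λ C : Type*} (f : C → Λ) {L L' : List C} (h : (L.map f).Perm (L'.map f)) :
    word f L * (word f L')⁻¹ ∈ lcs (⊤ : Subgroup (FreeGroup Λ)) 1 := by
  rw [← QuotientGroup.eq_one_iff]
  let π := QuotientGroup.mk' (lcs (⊤ : Subgroup (FreeGroup Λ)) 1)
  have hc := fun (x : FreeGroup Λ) => central_of_mem 0 (w := x) (Subgroup.mem_top _)
  have key : ∀ L : List C, π (word f L) = ((L.map f).map fun y => π (FreeGroup.of y)).prod := by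
    intro L
    simp [word, map_list_prod, List.map_map, Function.comp_def]
  have : π (word f L) = π (word f L') := by
    rw [key, key]
    refine List.Perm.prod_eq' (h.map _) ?_
    rw [List.pairwise_iff_forall_sublist]
    intro x y hxy
    have hx : x ∈ (L.map f).map fun y => π (FreeGroup.of y) := hxy.subset (by simp)
    obtain ⟨z, _, rfl⟩ := List.mem_map.1 hx
    exact hc _ _
  change π _ = 1
  rw [map_mul, map_inv, this, mul_inv_cancel]

end Vale.Agent.P058
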