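import Mathlib.RingTheory.TensorProduct.Maps
import Vale.Agent.P058.Filt
import Vale.Agent.P058.Nilp

/-!
The abelian step: from the tensor condition to pairs of positive combinations of columns with
equal marginals and a large gap of Gram matrices.
-/

namespace Vale.Agent.P058

open TensorProduct

noncomputable section

abbrev Col (d : ℕ) := ℝ × (Fin d → ℝ)

abbrev Gam (d : ℕ) := Fin d → Fin d → ℝ

def gr {d : ℕ} (c : Col d) : Gam d := fun α β => c.2 α * c.2 β

def sz {d : ℕ} (c : Col d) : ℝ := ∑ α, c.2 α ^ 2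

def sc (d : ℕ) : ℝ →+ Gam d where
  toFun t := fun α β => if α = β then t else 0
  map_zero' := by ext; simp
  map_add' t t' := by ext α β; by_cases h : α = β <;> simp [h]

lemma sc_apply {d : ℕ} (t : ℝ) (α β : Fin d) : sc d t α β = if α = β then t else 0 := rfl

lemma smul_sc {d : ℕ} (s t : ℝ) : s • sc d t = sc d (s * t) := by
  ext α β; by_cases h : α = β <;> simp [sc_apply, h]

def tr {d : ℕ} : Gam d →ₗ[ℝ] ℝ where
  toFun g := ∑ α, g α α
  map_add' g g' := by simp [Finset.sum_add_distrib]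
  map_smul' s g := by simp [Finset.mul_sum]

lemma tr_gr {d : ℕ} (c : Col d) : tr (gr c) = sz c := by simp [tr, gr, sz, sq]

lemma sz_nonneg {d : ℕ} (c : Col d) : 0 ≤ sz c := Finset.sum_nonneg fun _ _ => sq_nonneg _

lemma sz_smul {d : ℕ} (s : ℝ) (c : Col d) : sz (s • c) = s ^ 2 * sz c := by
  simp [sz, Finset.mul_sum, mul_pow]

lemma gr_smul {d : ℕ} (s : ℝ) (c : Col d) : gr (s • c) = s ^ 2 • gr c := by
  ext α β; simp [gr]; ring

lemma sz_add_le {d : ℕ} (v w : Col d) : sz (v + w) ≤ 2 * sz v + 2 * sz w := by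
  simp only [sz, Finset.mul_sum, ← Finset.sum_add_distrib]
  refine Finset.sum_le_sum fun α _ => ?_
  simp only [Prod.snd_add, Pi.add_apply]
  nlinarith [sq_nonneg (v.2 α - w.2 α)]

def lin {d : ℕ} (a : Fin d → ℝ) : Col d →ₗ[ℝ] ℝ where
  toFun c := c.1 + ∑ α, c.2 α * a α
  map_add' c c' := by simp [add_mul, Finset.sum_add_distrib]; ring
  map_smul' s c := by simp [mul_add, Finset.mul_sum, mul_assoc]

lemma lin_apply {d : ℕ} (a : Fin d → ℝ) (c : Col d) : lin a c = c.1 + ∑ α, c.2 α * a α := rfl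

@[simp] lemma lin_diag {d : ℕ} (a : Fin d → ℝ) (x : ℝ) : lin a (x, 0) = x := by simp [lin_apply]

variable {d : ℕ} {I : Type*} (a : I → Fin d → ℝ)

abbrev WW (I : Type*) (d : ℕ) := (I → GA) × Gam d

def nu (c : Col d) : WW I d := (fun i => T (lin (a i) c), gr c)

inductive Pos : WW I d → Prop
  | zero : Pos 0
  | gen (c : Col d) : Pos (nu a c)
  | add {x y} : Pos x → Pos y → Pos (x + y)
  | smul {x} (q : ℚ) : 0 ≤ q → Pos x → Pos (q • x)

variable {a}

lemma tr_qsmul (q : ℚ) (g : Gam d) : tr (q • g) = q * tr g := by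
  rw [← Rat.cast_smul_eq_qsmul ℝ, map_smul, smul_eq_mul]

lemma Pos.tr_nonneg {x} (h : Pos a x) : 0 ≤ tr x.2 := by
  induction h with
  | zero => simp
  | gen c => exact (tr_gr c).symm ▸ sz_nonneg c
  | add _ _ h1 h2 => simpa using add_nonneg h1 h2
  | smul q hq _ h => rw [Prod.smul_snd, tr_qsmul]; positivity

def act (w : GA) : WW I d →ₗ[ℚ] WW I d where
  toFun z := (fun i => w * z.1 i, aug w • z.2)
  map_add' z z' := by ext1 <;> [(ext1; simp [mul_add]); simp]
  map_smul' q z := by ext1 <;> [(ext1; simp); simp [smul_comm q]]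

lemma act_apply (w : GA) (z : WW I d) : act w z = (fun i => w * z.1 i, aug w • z.2) := rfl

lemma Pos.act {w x} (hw : PosA w) (h : Pos a x) : Pos a (act w x) := by
  induction h with
  | zero => simpa using Pos.zero
  | gen c =>
    induction hw with
    | zero =>
      have : Vale.Agent.P058.act 0 (nu a c) = 0 := by ext1 <;> [(ext1; simp [act_apply]); simp [act_apply]]
      rw [this]; exact Pos.zero
    | gen y =>
      have : Vale.Agent.P058.act (T y) (nu a c) = nu a ((y, 0) + c) := by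
        ext1
        · ext1 i; simp [act_apply, nu, T_add]
        · ext α β; simp [act_apply, nu, gr]
      rw [this]; exact Pos.gen _
    | @add u v _ _ h1 h2 =>
      have : Vale.Agent.P058.act (u + v) (nu a c) = Vale.Agent.P058.act u (nu a c) +
          Vale.Agent.P058.act v (nu a c) := by
        ext1
        · ext1 i; simp [act_apply, add_mul]
        · simp [act_apply, add_smul]
      rw [this]; exact h1.add h2
    | @smul u q hq _ h =>
      have : Vale.Agent.P058.act (q • u) (nu a c) = q • Vale.Agent.P058.act u (nu a c) := by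
        ext1
        · ext1 i; simp [act_apply]
        · simp [act_apply, mul_smul]
      rw [this]; exact h.smul q hq
  | add _ _ h1 h2 => rw [map_add]; exact h1.add h2
  | smul q hq _ h => rw [map_smul]; exact h.smul q hq

def scale (s : ℝ) : WW I d →ₗ[ℚ] WW I d where
  toFun z := (fun i => scl s (z.1 i), s ^ 2 • z.2)
  map_add' z z' := by ext1 <;> [(ext1; simp); simp]
  map_smul' q z := by ext1 <;> [(ext1; simp); simp [smul_comm q]]

lemma scale_apply (s : ℝ) (z : WW I d) : scale s z = (fun i => scl s (z.1 i), s ^ 2 • z.2) := rfl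

lemma Pos.scale {x} (s : ℝ) (h : Pos a x) : Pos a (scale s x) := by
  induction h with
  | zero => simpa using Pos.zero
  | gen c =>
    have : Vale.Agent.P058.scale s (nu a c) = nu a (s • c) := by
      ext1
      · ext1 i; simp [scale_apply, nu]
      · simp [scale_apply, nu, gr_smul]
    rw [this]; exact Pos.gen _
  | add _ _ h1 h2 => rw [map_add]; exact h1.add h2
  | smul q hq _ h => rw [map_smul]; exact h.smul q hq

variable (a) in
/-- representation with positive cost at most `s` and negative cost at most `t` -/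
def Rep (w : WW I d) (s t : ℝ) : Prop :=
  ∃ p n, Pos a p ∧ Pos a n ∧ w = p - n ∧ tr p.2 ≤ s ∧ tr n.2 ≤ t

lemma Rep.add {w w' s s' t t'} (h : Rep a w s t) (h' : Rep a w' s' t') :
    Rep a (w + w') (s + s') (t + t') := by
  obtain ⟨p, n, hp, hn, rfl, h1, h2⟩ := h
  obtain ⟨p', n', hp', hn', rfl, h1', h2'⟩ := h'
  exact ⟨p + p', n + n', hp.add hp', hn.add hn', by abel, by simpa using add_le_add h1 h1',
    by simpa using add_le_add h2 h2'⟩

lemma Rep.neg {w s t} (h : Rep a w s t) : Rep a (-w) t s := by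
  obtain ⟨p, n, hp, hn, rfl, h1, h2⟩ := h
  exact ⟨n, p, hn, hp, by abel, h2, h1⟩

lemma Rep.mono {w s s' t t'} (h : Rep a w s t) (hs : s ≤ s') (ht : t ≤ t') : Rep a w s' t' := by
  obtain ⟨p, n, hp, hn, rfl, h1, h2⟩ := h
  exact ⟨p, n, hp, hn, rfl, h1.trans hs, h2.trans ht⟩

lemma Rep.smul {w s t} (h : Rep a w s t) {q : ℚ} (hq : 0 ≤ q) :
    Rep a (q • w) (q * s) (q * t) := by
  obtain ⟨p, n, hp, hn, rfl, h1, h2⟩ := h
  have hq' : (0 : ℝ) ≤ q := by exact_mod_cast hq
  exact ⟨q • p, q • n, hp.smul q hq, hn.smul q hq, smul_sub _ _ _,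
    by rw [Prod.smul_snd, tr_qsmul]; exact mul_le_mul_of_nonneg_left h1 hq',
    by rw [Prod.smul_snd, tr_qsmul]; exact mul_le_mul_of_nonneg_left h2 hq'⟩

lemma Rep.smul' {w s} (h : Rep a w s s) (q : ℚ) :
    Rep a (q • w) (|(q : ℝ)| * s) (|(q : ℝ)| * s) := by
  rcases le_total 0 q with hq | hq
  · have := h.smul hq
    rwa [abs_of_nonneg (by exact_mod_cast hq : (0 : ℝ) ≤ q)]
  · have := h.neg.smul (neg_nonneg.2 hq)
    rw [abs_of_nonpos (by exact_mod_cast hq : (q : ℝ) ≤ 0)]
    simpa using this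

lemma Rep.act {w s t} (h : Rep a w s t) {u} (hu : PosA u) (eu : aug u = 1) :
    Rep a (act u w) s t := by
  obtain ⟨p, n, hp, hn, rfl, h1, h2⟩ := h
  exact ⟨_, _, hp.act hu, hn.act hu, map_sub _ _ _, by simpa [act_apply, eu] using h1,
    by simpa [act_apply, eu] using h2⟩

lemma Rep.scale {w s t} (h : Rep a w s t) (r : ℝ) :
    Rep a (scale r w) (r ^ 2 * s) (r ^ 2 * t) := by
  obtain ⟨p, n, hp, hn, rfl, h1, h2⟩ := h
  refine ⟨_, _, hp.scale r, hn.scale r, map_sub _ _ _, ?_, ?_⟩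
  · simpa [scale_apply] using mul_le_mul_of_nonneg_left h1 (sq_nonneg r)
  · simpa [scale_apply] using mul_le_mul_of_nonneg_left h2 (sq_nonneg r)

lemma Rep.zero : Rep a 0 0 0 := ⟨0, 0, Pos.zero, Pos.zero, by simp, by simp, by simp⟩

lemma Rep.nu (c : Col d) : Rep a (nu a c) (sz c) 0 :=
  ⟨_, 0, Pos.gen c, Pos.zero, by simp, (tr_gr c).le, by simp⟩

lemma Rep.nonneg {w s t} (h : Rep a w s t) : 0 ≤ s ∧ 0 ≤ t := by
  obtain ⟨p, n, hp, hn, rfl, h1, h2⟩ := h
  exact ⟨hp.tr_nonneg.trans h1, hn.tr_nonneg.trans h2⟩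

variable (a) in
def Lev (P : (I → GA) → Prop) : Prop :=
  ∀ η, 0 < η → ∃ (w : WW I d) (γ s : ℝ), 0 < γ ∧ P w.1 ∧ w.2 = sc d γ ∧ Rep a w s (η * γ)

lemma exists_scale2 {m : ℕ} (hm : 3 ≤ m) {η γ A : ℝ} (hη : 0 < η) (hγ : 0 < γ) :
    ∃ n : ℕ, 0 < ((n : ℝ) ^ m - n ^ 2) ∧
      (n : ℝ) ^ m * (η / 4 * γ) + n ^ 2 * A ≤ η * (((n : ℝ) ^ m - n ^ 2) * γ) := by
  obtain ⟨n, hn⟩ := exists_nat_ge (max 2 (4 * A / (η * γ)))
  have h2 : (2 : ℝ) ≤ n := le_trans (le_max_left _ _) hn
  have hA : 4 * A ≤ n * (η * γ) := by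
    have := le_trans (le_max_right _ _) hn
    rwa [div_le_iff₀ (by positivity)] at this
  have hp : (n : ℝ) ^ 2 * n ≤ (n : ℝ) ^ m := by
    rw [← pow_succ]
    exact pow_le_pow_right₀ (by linarith) (by omega)
  set M := (n : ℝ) ^ m
  have hN : 0 < (n : ℝ) ^ 2 := by positivity
  set N := (n : ℝ) ^ 2
  have hηγ : 0 < η * γ := by positivity
  refine ⟨n, by nlinarith, ?_⟩
  have h4 : N * (4 * A) ≤ N * (n * (η * γ)) := mul_le_mul_of_nonneg_left hA hN.le
  have h5 : N * n * (η * γ) ≤ M * (η * γ) := mul_le_mul_of_nonneg_right hp hηγ.le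
  have h6 : 2 * N * (η * γ) ≤ M * (η * γ) := mul_le_mul_of_nonneg_right (by nlinarith) hηγ.le
  nlinarith

lemma Lev.succ {m : ℕ} (hm : 3 ≤ m) (h : Lev a fun ξ => ∀ i, ξ i ∈ Fil m) :
    Lev a fun ξ => ∀ i, ξ i ∈ Fil (m + 1) := by
  intro η hη
  obtain ⟨w, γ, s, hγ, hw, e, hr⟩ := h (η / 4) (by positivity)
  obtain ⟨n, hn0, hn⟩ := exists_scale2 hm (A := s) hη hγ
  have h1 := (hr.smul (q := (n ^ m : ℕ)) (by positivity)).add (hr.scale n).neg
  refine ⟨_, ((n : ℝ) ^ m - n ^ 2) * γ, _, by positivity, fun i => ?_, ?_,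
    h1.mono le_rfl (by push_cast; exact hn)⟩
  · have := Submodule.neg_mem _ (scl_Fil n (hw i))
    convert this using 1
    simp only [scale_apply, Prod.fst_add, Prod.smul_fst, Prod.fst_neg, Pi.add_apply,
      Pi.smul_apply, Pi.neg_apply, Nat.cast_smul_eq_nsmul]
    abel
  · simp only [scale_apply, Prod.snd_add, Prod.smul_snd, Prod.snd_neg, e]
    rw [← Rat.cast_smul_eq_qsmul ℝ, smul_sc, smul_sc, ← map_neg, ← map_add]
    congr 1
    push_cast
    ring

/-! ### the smoothing step -/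

variable (a) in
def Smooth (ξ : I → GA) : Prop :=
  ∀ ε, 0 < ε → ∃ u, PosA u ∧ aug u = 1 ∧ Rep a (act u (ξ, 0)) ε ε

lemma act_act (u v : GA) (z : WW I d) : act u (act v z) = act (u * v) z := by
  ext1
  · ext1 i; simp [act_apply, mul_assoc]
  · simp [act_apply, mul_smul]

variable (a) in
def SmoothSub : Submodule ℚ (I → GA) where
  carrier := {ξ | Smooth a ξ}
  zero_mem' := fun ε hε => ⟨T 0, PosA.gen 0, by simp, by
    rw [show ((0, 0) : WW I d) = 0 from rfl, map_zero]; exact Rep.zero.mono hε.le hε.le⟩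
  add_mem' := by
    intro ξ ξ' h h' ε hε
    obtain ⟨u, hu, eu, hr⟩ := h (ε / 2) (by positivity)
    obtain ⟨u', hu', eu', hr'⟩ := h' (ε / 2) (by positivity)
    refine ⟨u * u', hu.mul hu', by simp [eu, eu'], ?_⟩
    have := (hr.act hu' eu').add (hr'.act hu eu)
    rw [act_act, act_act, mul_comm u' u, ← map_add, add_halves] at this
    simpa using this
  smul_mem' := by
    intro q ξ h ε hε
    obtain ⟨u, hu, eu, hr⟩ := h (ε / (|(q : ℝ)| + 1)) (by positivity)
    refine ⟨u, hu, eu, ?_⟩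
    have := hr.smul' q
    rw [← map_smul] at this
    have hle : |(q : ℝ)| * (ε / (|(q : ℝ)| + 1)) ≤ ε := by
      rw [← mul_div_assoc, div_le_iff₀ (by positivity)]
      nlinarith
    simpa using this.mono hle hle

abbrev GC (d : ℕ) := AddMonoidAlgebra ℚ (Col d)

def TC (c : Col d) : GC d := AddMonoidAlgebra.single c 1

variable (a) in
def marg (i : I) : GC d →ₐ[ℚ] GA :=
  AddMonoidAlgebra.mapDomainAlgHom ℚ ℚ (lin (a i)).toAddMonoidHom

@[simp] lemma marg_TC (i : I) (c : Col d) : marg a i (TC c) = T (lin (a i) c) := by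
  simp [marg, TC, T]

def gramL : GC d →ₗ[ℚ] Gam d :=
  Finsupp.linearCombination ℚ gr ∘ₗ (AddMonoidAlgebra.coeffLinearEquiv ℚ).toLinearMap

lemma gramL_single (c : Col d) (q : ℚ) : gramL (AddMonoidAlgebra.single c q) = q • gr c := by
  simp [gramL]

lemma gramL_shift (x : ℝ) (z : GC d) : gramL (TC (x, 0) * z) = gramL z := by
  induction z using AddMonoidAlgebra.induction_linear with
  | zero => simp
  | add z z' h h' => rw [mul_add, map_add, map_add, h, h']
  | single c q =>
    rw [TC, AddMonoidAlgebra.single_mul_single, gramL_single, gramL_single, one_mul]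
    congr 1
    ext α β; simp [gr]

lemma exists_rep (z : GC d) : ∃ s, Rep a (fun i => marg a i z, gramL z) s s := by
  induction z using AddMonoidAlgebra.induction_linear with
  | zero =>
    refine ⟨0, ?_⟩
    have : ((fun i => marg a i 0, gramL 0) : WW I d) = 0 := by ext1 <;> [(ext1; simp); simp]
    rw [this]; exact Rep.zero
  | add z z' h h' =>
    obtain ⟨s, h⟩ := h
    obtain ⟨s', h'⟩ := h'
    refine ⟨s + s', ?_⟩
    have := h.add h'
    convert this using 1
    ext1 <;> [(ext1; simp); simp]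
  | single c q =>
    have := ((Rep.nu (a := a) c).mono le_rfl (sz_nonneg c)).smul' q
    refine ⟨|(q : ℝ)| * sz c, ?_⟩
    convert this using 1
    ext1
    · ext1 i; simp [marg, nu, T]
    · simp [gramL_single, nu]

lemma smooth_gen [Fintype I] [DecidableEq I] (i : I) (x : ℝ) (l : List ℝ)
    (hl : l.length = Fintype.card I + 3) (hsep : ∀ j, j ≠ i → ∀ h : ℝ, ∃ v : Col d,
      lin (a i) v = h ∧ lin (a j) v = 0) :
    Smooth a (Pi.single i (T x * (l.map D).prod)) := by
  -- build a lift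
  have key : ∀ (s : Finset I), i ∉ s → ∀ l : List ℝ, s.card ≤ l.length → ∃ z : GC d,
      marg a i z = (l.map D).prod ∧ ∀ j ∈ s, marg a j z = 0 := by
    intro s
    induction s using Finset.induction_on with
    | empty =>
      intro _ l _
      refine ⟨(l.map fun h => TC (h, 0) - 1).prod, ?_, by simp⟩
      rw [map_list_prod, List.map_map]
      congr 1
      ext h; simp [D]
    | insert j s hj ih =>
      intro hi l hl
      rw [Finset.card_insert_of_notMem hj] at hl
      obtain _ | ⟨h, l⟩ := l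
      · simp at hl
      · obtain ⟨z, e1, e2⟩ := ih (fun h => hi (Finset.mem_insert_of_mem h)) l (by simpa using hl)
        obtain ⟨v, ev1, ev2⟩ := hsep j (by rintro rfl; simp at hi) h
        refine ⟨(TC v - 1) * z, by simp [e1, ev1, D], fun k hk => ?_⟩
        rcases Finset.mem_insert.1 hk with rfl | hk
        · simp [ev2]
        · simp [e2 k hk]
  obtain _ | ⟨h, l⟩ := l
  · simp at hl
  obtain ⟨z, e1, e2⟩ := key (Finset.univ.erase i) (by simp) l (by
    have := Finset.card_le_univ (Finset.univ.erase i)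
    simp only [List.length_cons] at hl
    omega)
  obtain ⟨s, hs⟩ := exists_rep (a := a) ((TC (h, 0) - 1) * z)
  have hz : ((fun j => marg a j ((TC (h, 0) - 1) * z), gramL ((TC (h, 0) - 1) * z)) : WW I d)
      = (Pi.single i ((h :: l).map D).prod, 0) := by
    ext1
    · ext1 j
      by_cases e : j = i
      · subst e; simp [e1, D]
      · simp [e, e2 j (by simpa using e)]
    · simp [sub_mul, gramL_shift]
  rw [hz] at hs
  intro ε hε
  have hs0 := hs.nonneg.1
  obtain ⟨R, hR⟩ := exists_nat_ge (max 1 (s / ε))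
  have hR1 : (1 : ℝ) ≤ R := le_trans (le_max_left _ _) hR
  have hRs : s ≤ R * ε := by
    have := le_trans (le_max_right _ _) hR
    rwa [div_le_iff₀ hε] at this
  have hR0 : 0 < R := by exact_mod_cast (lt_of_lt_of_le one_pos hR1)
  obtain ⟨u, hu, eu, e⟩ := exists_smooth R hR0 (h :: l)
  refine ⟨u, hu, eu, ?_⟩
  have h1 := ((hs.scale R).smul (q := (R : ℚ)⁻¹ ^ (h :: l).length) (by positivity)).act
    (PosA.gen x) (by simp)
  have hle : (((R : ℚ)⁻¹ ^ (h :: l).length : ℚ) : ℝ) * (R ^ 2 * s) ≤ ε := by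
    rw [hl]
    push_cast
    have h3 : (R : ℝ)⁻¹ ^ (Fintype.card I + 3) ≤ (R : ℝ)⁻¹ ^ 3 :=
      pow_le_pow_of_le_one (by positivity) (inv_le_one_of_one_le₀ hR1) (by omega)
    calc _ ≤ (R : ℝ)⁻¹ ^ 3 * (R ^ 2 * s) := by gcongr
      _ = s / R := by field_simp
      _ ≤ ε := by rw [div_le_iff₀ (by positivity)]; linarith
  convert h1.mono hle hle using 1
  ext1
  · ext1 j
    by_cases e' : j = i
    · subst e'
      simp only [act_apply, scale_apply, Pi.single_eq_same, Prod.smul_fst, Pi.smul_apply]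
      rw [mul_left_comm, e]
    · simp [act_apply, scale_apply, e']
  · simp [act_apply, scale_apply]

lemma smooth_of_Fil [Fintype I] [DecidableEq I]
    (hsep : ∀ i j, j ≠ i → ∀ h : ℝ, ∃ v : Col d, lin (a i) v = h ∧ lin (a j) v = 0)
    {ξ : I → GA} (hξ : ∀ i, ξ i ∈ Fil (Fintype.card I + 3)) : Smooth a ξ := by
  have : ξ = ∑ i, Pi.single i (ξ i) := (Finset.univ_sum_single ξ).symm
  rw [this]
  refine Submodule.sum_mem (SmoothSub a) fun i _ => ?_
  exact Fil_map (LinearMap.single ℚ (fun _ : I => GA) i) (SmoothSub a)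
    (fun x l hl => smooth_gen i x l hl (hsep i)) (hξ i)

lemma Lev.final [Fintype I] [DecidableEq I]
    (hsep : ∀ i j, j ≠ i → ∀ h : ℝ, ∃ v : Col d, lin (a i) v = h ∧ lin (a j) v = 0)
    (h : Lev a fun ξ => ∀ i, ξ i ∈ Fil 3) : Lev a fun ξ => ξ = 0 := by
  have h1 : ∀ m, Lev a fun ξ => ∀ i, ξ i ∈ Fil (m + 3) := by
    intro m
    induction m with
    | zero => simpa using h
    | succ m ih => exact ih.succ (by omega)
  intro η hη
  obtain ⟨w, γ, s, hγ, hw, e, hr⟩ := h1 (Fintype.card I) (η / 2) (by positivity)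
  obtain ⟨u, hu, eu, hr'⟩ := smooth_of_Fil hsep hw (η / 2 * γ) (by positivity)
  refine ⟨_, γ, _, hγ, ?_, ?_, ((hr.act hu eu).add hr'.neg).mono le_rfl (by linarith)⟩
  · ext1 i; simp [act_apply]
  · simp [act_apply, eu, e]

lemma Pos.exists_list {p} (h : Pos a p) : ∃ N : ℕ, 0 < N ∧ ∃ L : List (Col d),
    N • p = (L.map (nu a)).sum := by
  induction h with
  | zero => exact ⟨1, one_pos, [], by simp⟩
  | gen c => exact ⟨1, one_pos, [c], by simp⟩
  | add _ _ h1 h2 =>
    obtain ⟨N, hN, L, e⟩ := h1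
    obtain ⟨N', hN', L', e'⟩ := h2
    refine ⟨N * N', by positivity, rep N' L ++ rep N L', ?_⟩
    rw [List.map_append, List.sum_append, sum_rep, sum_rep, ← e, ← e', smul_add, ← mul_smul,
      ← mul_smul, mul_comm N' N]
  | @smul x q hq _ h =>
    obtain ⟨N, hN, L, e⟩ := h
    refine ⟨q.den * N, Nat.mul_pos q.den_pos hN, rep q.num.toNat L, ?_⟩
    rw [sum_rep, ← e, ← Nat.cast_smul_eq_nsmul ℚ, ← Nat.cast_smul_eq_nsmul ℚ,
      ← Nat.cast_smul_eq_nsmul ℚ, ← mul_smul, ← mul_smul]
    congr 1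
    have : ((q.num.toNat : ℕ) : ℚ) = q.num := by
      have := Int.toNat_of_nonneg (Rat.num_nonneg.2 hq)
      exact_mod_cast congrArg (fun z : ℤ => (z : ℚ)) this
    rw [this, ← Rat.mul_den_eq_num q]
    push_cast
    ring

lemma coeff_sum_T (L : List ℝ) (y : ℝ) : ((L.map T).sum).coeff y = (L.count y : ℚ) := by
  induction L with
  | nil => simp
  | cons x L ih =>
    rw [List.map_cons, List.sum_cons, AddMonoidAlgebra.coeff_add, Finsupp.add_apply, ih,
      List.count_cons]
    by_cases h : x = y <;> simp [T, h, add_comm]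

lemma perm_of_sum_T {L L' : List ℝ} (h : (L.map T).sum = (L'.map T).sum) : L.Perm L' := by
  rw [List.perm_iff_count]
  intro y
  have := coeff_sum_T L y
  rw [h, coeff_sum_T] at this
  exact_mod_cast this.symm

lemma sum_nu (L : List (Col d)) : (L.map (nu a)).sum =
    (fun i => ((L.map (lin (a i))).map T).sum, (L.map gr).sum) := by
  induction L with
  | nil => rfl
  | cons c L ih => rw [List.map_cons, List.sum_cons, ih]; rfl

lemma tr_sum_gr (L : List (Col d)) : tr (L.map gr).sum = (L.map sz).sum := by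
  induction L with
  | nil => simp
  | cons c L ih => simp [ih, tr_gr]

lemma ratio_one (h : Lev a fun ξ => ξ = 0) :
    Ratio (fun i c => lin (a i) c) gr (sc d) sz 1 := by
  intro η hη
  obtain ⟨w, γ, s, hγ, hw, e, p, n, hp, hn, rfl, _, h2⟩ := h η hη
  obtain ⟨N, hN, L, eL⟩ := hp.exists_list
  obtain ⟨N', hN', L', eL'⟩ := hn.exists_list
  have e1 : ((rep N' L).map (nu a)).sum = (N * N') • p := by
    rw [sum_rep, ← eL, ← mul_smul, mul_comm]
  have e2 : ((rep N L').map (nu a)).sum = (N * N') • n := by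
    rw [sum_rep, ← eL', ← mul_smul]
  rw [sum_nu] at e1 e2
  have hp1 : p.1 = n.1 := sub_eq_zero.1 hw
  have hp2 : p.2 = n.2 + sc d γ := by rw [← e]; simp
  refine ⟨rep N L', rep N' L, (N * N' : ℕ) * γ, by positivity, ?_, ?_, fun i => ?_⟩
  · have h3 := congrArg Prod.snd e1
    have h4 := congrArg Prod.snd e2
    simp only [Prod.smul_snd] at h3 h4
    rw [h3, h4, hp2, smul_add, ← nsmul_eq_mul, map_nsmul]
  · have h4 := congrArg Prod.snd e2
    simp only [Prod.smul_snd] at h4
    rw [← tr_sum_gr, h4, map_nsmul, nsmul_eq_mul, mul_left_comm]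
    exact mul_le_mul_of_nonneg_left h2 (by positivity)
  · apply word_perm
    apply perm_of_sum_T
    have h3 := congrFun (congrArg Prod.fst e1) i
    have h4 := congrFun (congrArg Prod.fst e2) i
    simp only [Prod.smul_fst] at h3 h4
    rw [hp1] at h3
    exact h4.trans h3.symm

end

end Vale.Agent.P058
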