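import Mathlib.Analysis.InnerProductSpace.PiL2
import Mathlib.RingTheory.TensorProduct.Maps
import Mathlib.FieldTheory.IntermediateField.Basic

/-!
Definitions used in the statements about Euclidean Ramsey sets.
-/

namespace Vale.Agent.P058

open scoped TensorProduct

/-- `f` preserves all pairwise distances between points of `A`, so `f '' A` is congruent to `A`. -/
def PreservesDist {d D : ℕ} (A : Finset (EuclideanSpace ℝ (Fin d)))
    (f : EuclideanSpace ℝ (Fin d) → EuclideanSpace ℝ (Fin D)) : Prop :=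
  ∀ a ∈ A, ∀ b ∈ A, dist (f a) (f b) = dist a b

/-- `A` is Ramsey: for every number of colours `r ≥ 2` there is a dimension `D ≥ 1` such that
every `r`-colouring of `ℝ^D` is constant on a congruent copy of `A`. -/
def IsRamsey {d : ℕ} (A : Finset (EuclideanSpace ℝ (Fin d))) : Prop :=
  ∀ r : ℕ, 2 ≤ r → ∃ D : ℕ, 1 ≤ D ∧ ∀ c : EuclideanSpace ℝ (Fin D) → Fin r,
    ∃ f : EuclideanSpace ℝ (Fin d) → EuclideanSpace ℝ (Fin D),
      PreservesDist A f ∧ ∃ k : Fin r, ∀ a ∈ A, c (f a) = k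

/-- The isometries of `ℝ^n` that map the finite set `X` onto itself act transitively on `X`. -/
def IsTransitive {n : ℕ} (X : Finset (EuclideanSpace ℝ (Fin n))) : Prop :=
  ∀ x ∈ X, ∀ y ∈ X, ∃ g : EuclideanSpace ℝ (Fin n) ≃ᵢ EuclideanSpace ℝ (Fin n),
    g '' (X : Set (EuclideanSpace ℝ (Fin n))) = X ∧ g x = y

/-- `A` is congruent to a subset of a finite transitive set. -/
def IsSubtransitive {d : ℕ} (A : Finset (EuclideanSpace ℝ (Fin d))) : Prop :=
  ∃ (n : ℕ) (X : Finset (EuclideanSpace ℝ (Fin n))), IsTransitive X ∧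
    ∃ f : EuclideanSpace ℝ (Fin d) → EuclideanSpace ℝ (Fin n),
      PreservesDist A f ∧ ∀ a ∈ A, f a ∈ X

/-- The homogeneous coordinate vector `(1, x₁, …, x_d)` of a point `x` with coordinates in `F`. -/
noncomputable def homog {d : ℕ} (F : IntermediateField ℚ ℝ) (x : EuclideanSpace ℝ (Fin d))
    (hx : ∀ α, x α ∈ F) (u : Option (Fin d)) : F :=
  u.elim 1 fun α => ⟨x α, hx α⟩

/-- `(p ⊗ 1)ᵀ P (1 ⊗ p)` for a vector `p` over `K` and a square matrix `P` over `K ⊗[ℚ] K`. -/
noncomputable def pairing {K : Type} [Field K] [Algebra ℚ K] {d : ℕ} (p : Option (Fin d) → K)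
    (P : Option (Fin d) → Option (Fin d) → K ⊗[ℚ] K) : K ⊗[ℚ] K :=
  ∑ u, ∑ v, (p u ⊗ₜ[ℚ] (1 : K)) * P u v * ((1 : K) ⊗ₜ[ℚ] p v)

/-- The multiplication map `K ⊗[ℚ] K → K`, `x ⊗ y ↦ x * y`. -/
noncomputable def mulMap {K : Type} [Field K] [Algebra ℚ K] (z : K ⊗[ℚ] K) : K :=
  Algebra.TensorProduct.lmul' ℚ z

/-- For a family of vectors `p i` over `K`: there is a `(d+1) × (d+1)` matrix `P` over `K ⊗[ℚ] K`
with `(p i ⊗ 1)ᵀ P (1 ⊗ p i) = 0` for all `i`, whose lower `d × d` block is sent to the identity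
matrix by the multiplication map `K ⊗[ℚ] K → K`. -/
def TensorSolvable {K : Type} [Field K] [Algebra ℚ K] {d : ℕ} {ι : Type}
    (p : ι → Option (Fin d) → K) : Prop :=
  ∃ P : Option (Fin d) → Option (Fin d) → K ⊗[ℚ] K, (∀ i, pairing (p i) P = 0) ∧
    ∀ α β : Fin d, mulMap (P (some α) (some β)) = if α = β then 1 else 0

/-- The tensor condition for `A` over a field `F` containing the coordinates of `A`: the
condition above for the homogeneous coordinate vectors of the points of `A`. -/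
def TensorCondition {d : ℕ} (A : Finset (EuclideanSpace ℝ (Fin d))) (F : IntermediateField ℚ ℝ)
    (hF : ∀ a ∈ A, ∀ α, a α ∈ F) : Prop :=
  TensorSolvable fun a : A => homog F a.1 (hF a.1 a.2)

end Vale.Agent.P058
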