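import Vale.Agent.P058.Geom

/-!
Descent of the tensor condition from the reals to a field containing the coordinates.
-/

namespace Vale.Agent.P058

open TensorProduct

noncomputable section

variable {d : ℕ}

lemma exists_descent (F : IntermediateField ℚ ℝ) :
    ∃ (Ψ : ℝ ⊗[ℚ] ℝ →ₗ[ℚ] F ⊗[ℚ] F) (ρ : ℝ →ₗ[F] F), ρ 1 = 1 ∧
      (∀ (f g : F) (z : ℝ ⊗[ℚ] ℝ), Ψ (((f : ℝ) ⊗ₜ[ℚ] (g : ℝ)) * z) = (f ⊗ₜ[ℚ] g) * Ψ z) ∧
      ∀ z, Algebra.TensorProduct.lmul' ℚ (Ψ z) = ρ (Algebra.TensorProduct.lmul' ℚ z) := by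
  classical
  obtain ⟨ρ, -, hρ⟩ := LinearMap.exists_extend_of_notMem
    (0 : (⊥ : Submodule F ℝ) →ₗ[F] F) (v := (1 : ℝ)) (by simp) 1
  let b := Module.Basis.ofVectorSpace F ℝ
  let B : ℝ →ₗ[ℚ] ℝ →ₗ[ℚ] F ⊗[ℚ] F := LinearMap.mk₂ ℚ
    (fun x y => (b.repr y).sum fun l g => ρ (x * b l) ⊗ₜ[ℚ] g)
    (fun x x' y => by simp [add_mul, add_tmul, Finsupp.sum_add])
    (fun q x y => by
      simp only [Finsupp.sum, Finset.smul_sum, smul_mul_assoc, LinearMap.map_smul_of_tower,
        smul_tmul'])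
    (fun x y y' => by
      rw [map_add, Finsupp.sum_add_index'] <;> simp [tmul_add])
    (fun q x y => by
      rw [← LinearEquiv.coe_coe, LinearMap.map_smul_of_tower, Finsupp.sum_smul_index']
      · simp only [Finsupp.sum, Finset.smul_sum, tmul_smul]
      · simp)
  have hB : ∀ x y, B x y = (b.repr y).sum fun l g => ρ (x * b l) ⊗ₜ[ℚ] g := fun _ _ => rfl
  refine ⟨TensorProduct.lift B, ρ, hρ, fun f g z => ?_, fun z => ?_⟩
  · induction z with
    | zero => simp
    | add z z' h h' => simp only [mul_add, map_add, h, h']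
    | tmul x y =>
      rw [Algebra.TensorProduct.tmul_mul_tmul, lift.tmul, lift.tmul, hB, hB]
      have e1 : (g : ℝ) * y = g • y := rfl
      rw [e1, map_smul, Finsupp.sum_smul_index' (by simp), Finsupp.sum, Finsupp.sum,
        Finset.mul_sum]
      refine Finset.sum_congr rfl fun l _ => ?_
      have e2 : (f : ℝ) * x * b l = f • (x * b l) := mul_assoc _ _ _
      rw [e2, map_smul, Algebra.TensorProduct.tmul_mul_tmul, smul_eq_mul, smul_eq_mul]
  · induction z with
    | zero => simp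
    | add z z' h h' => simp only [map_add, h, h']
    | tmul x y =>
      rw [lift.tmul, hB, Finsupp.sum, map_sum, Algebra.TensorProduct.lmul'_apply_tmul]
      conv_rhs => rw [← b.linearCombination_repr y, Finsupp.linearCombination_apply, Finsupp.sum,
        Finset.mul_sum, map_sum]
      refine Finset.sum_congr rfl fun l _ => ?_
      rw [Algebra.TensorProduct.lmul'_apply_tmul, mul_smul_comm, map_smul, smul_eq_mul, mul_comm]

lemma homog_coe (A : Finset (E d)) (F : IntermediateField ℚ ℝ) (hF : ∀ a ∈ A, ∀ α, a α ∈ F)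
    (i : A) (o : Option (Fin d)) : (homog F i.1 (hF _ i.2) o : ℝ) = hom (fam A i) o := by
  cases o <;> simp [homog, hom, fam]

lemma tensor_mul_comm {R : Type*} [CommRing R] [Algebra ℚ R] (x y : R) (z : R ⊗[ℚ] R) :
    (x ⊗ₜ[ℚ] (1 : R)) * z * ((1 : R) ⊗ₜ[ℚ] y) = (x ⊗ₜ[ℚ] y) * z := by
  rw [mul_right_comm, Algebra.TensorProduct.tmul_mul_tmul, mul_one, one_mul]

theorem tensor_iff_real (A : Finset (E d)) (F : IntermediateField ℚ ℝ)
    (hF : ∀ a ∈ A, ∀ α, a α ∈ F) : TensorCondition A F hF ↔ RealTensor (fam A) := by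
  constructor
  · rintro ⟨P, h1, h2⟩
    let ι : F ⊗[ℚ] F →ₐ[ℚ] ℝ ⊗[ℚ] ℝ := Algebra.TensorProduct.map F.val F.val
    have hιt : ∀ x y : F, ι (x ⊗ₜ[ℚ] y) = (x : ℝ) ⊗ₜ[ℚ] (y : ℝ) := fun x y =>
      Algebra.TensorProduct.map_tmul _ _ _ _
    have hι : ∀ z, Algebra.TensorProduct.lmul' ℚ (ι z) =
        F.val (Algebra.TensorProduct.lmul' ℚ z) := by
      intro z
      induction z with
      | zero => simp
      | add z z' h h' => simp only [map_add, h, h']
      | tmul x y => simp [hιt]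
    refine ⟨fun o o' => ι (P o o'), fun i => ?_, fun α β => ?_⟩
    · have := congrArg ι (h1 i)
      simpa only [pairing, tensor_mul_comm, map_sum, map_mul, map_zero, hιt,
        homog_coe A F hF] using this
    · rw [hι, ← mulMap, h2]
      split_ifs <;> simp
  · rintro ⟨P, h1, h2⟩
    obtain ⟨Ψ, ρ, hρ, hΨ, hm⟩ := exists_descent F
    refine ⟨fun o o' => Ψ (P o o'), fun x => ?_, fun α β => ?_⟩
    · have := congrArg Ψ (h1 x)
      simp only [map_sum, map_zero, ← homog_coe A F hF, hΨ] at this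
      simpa only [pairing, tensor_mul_comm] using this
    · rw [mulMap, hm, h2]
      split_ifs <;> simp [hρ]

theorem ramsey_iff_tensor (A : Finset (E d)) (hA : A.Nonempty) (F : IntermediateField ℚ ℝ)
    (hF : ∀ a ∈ A, ∀ α, a α ∈ F) : IsRamsey A ↔ TensorCondition A F hF :=
  ⟨fun h => (tensor_iff_real A F hF).2 (real_of_ramsey A hA h),
    fun h => ramsey_of_real A ((tensor_iff_real A F hF).1 h)⟩

theorem ramsey_of_subtransitive (A : Finset (E d)) (hA : A.Nonempty) (h : IsSubtransitive A) :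
    IsRamsey A :=
  ramsey_of_real A (real_of_subtransitive A hA h)

end

end Vale.Agent.P058
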