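import Vale.Agent.P058.Abelian

/-!
From the tensor condition over the reals to the third level of the augmentation filtration.
-/

namespace Vale.Agent.P058

open TensorProduct

noncomputable section

variable {d : ℕ} {I : Type*} {a : I → Fin d → ℝ}

/-- homogeneous coordinates -/
def hom (x : Fin d → ℝ) : Option (Fin d) → ℝ := fun o => o.elim 1 x

def bas : Option (Fin d) → Col d := fun o => o.elim (1, 0) fun α => (0, Pi.single α 1)

lemma lin_bas (x : Fin d → ℝ) (o : Option (Fin d)) : lin x (bas o) = hom x o := by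
  cases o with
  | none => simp [bas, hom]
  | some α => simp [bas, hom, lin_apply, Pi.single_apply]

lemma sz_bas_none : sz (bas none : Col d) = 0 := by simp [sz, bas]

lemma sz_bas_le (o : Option (Fin d)) : sz (bas o : Col d) ≤ 1 := by
  cases o with
  | none => simp [sz_bas_none]
  | some α => simp [sz, bas, Pi.single_apply]

abbrev W3 (I : Type*) (d : ℕ) := (I → Q3) × Gam d

def pi3 : WW I d →ₗ[ℚ] W3 I d where
  toFun w := (fun i => (Fil 3).mkQ (w.1 i), w.2)
  map_add' z z' := by ext1 <;> [(ext1; simp); simp]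
  map_smul' q z := by ext1 <;> [(ext1; simp); simp]

lemma pi3_apply (w : WW I d) : pi3 w = (fun i => (Fil 3).mkQ (w.1 i), w.2) := rfl

def symm2 (v w : Col d) : Gam d := fun α β => v.2 α * w.2 β + w.2 α * v.2 β

variable (a) in
def Psi : Col d →ₗ[ℚ] Col d →ₗ[ℚ] W3 I d :=
  LinearMap.mk₂ ℚ (fun v w => (fun i => beta (lin (a i) v) (lin (a i) w), symm2 v w))
    (fun v v' w => by
      ext1
      · ext1 i; simp
      · ext α β; simp [symm2]; ring)
    (fun q v w => by
      ext1
      · ext1 i; simp [LinearMap.map_smul_of_tower]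
      · ext α β; simp [symm2])
    (fun v w w' => by
      ext1
      · ext1 i; simp
      · ext α β; simp [symm2]; ring)
    (fun q v w => by
      ext1
      · ext1 i; simp [LinearMap.map_smul_of_tower]
      · ext α β; simp [symm2])

lemma Psi_apply (v w : Col d) :
    Psi a v w = (fun i => beta (lin (a i) v) (lin (a i) w), symm2 v w) := rfl

lemma pi3_second (v w : Col d) :
    pi3 (nu a (v + w) + nu a 0 - (nu a v + nu a w)) = Psi a v w := by
  rw [Psi_apply, pi3_apply]
  ext1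
  · ext1 i
    simp only [beta_apply]
    congr 1
    simp [nu, D, T_add]
    ring
  · ext α β
    simp [nu, gr, symm2]
    ring

variable (a) in
def Rep3 (ζ : W3 I d) (s t : ℝ) : Prop := ∃ w, pi3 w = ζ ∧ Rep a w s t

lemma Rep3.add {w w' s s' t t'} (h : Rep3 a w s t) (h' : Rep3 a w' s' t') :
    Rep3 a (w + w') (s + s') (t + t') := by
  obtain ⟨x, rfl, h⟩ := h
  obtain ⟨x', rfl, h'⟩ := h'
  exact ⟨_, map_add _ _ _, h.add h'⟩

lemma Rep3.neg {w s t} (h : Rep3 a w s t) : Rep3 a (-w) t s := by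
  obtain ⟨x, rfl, h⟩ := h
  exact ⟨_, map_neg _ _, h.neg⟩

lemma Rep3.mono {w s s' t t'} (h : Rep3 a w s t) (hs : s ≤ s') (ht : t ≤ t') :
    Rep3 a w s' t' := by
  obtain ⟨x, rfl, h⟩ := h
  exact ⟨_, rfl, h.mono hs ht⟩

lemma sz_zero : sz (0 : Col d) = 0 := by simp [sz]

lemma rep3_Psi (v w : Col d) : Rep3 a (Psi a v w) (sz (v + w)) (sz v + sz w) := by
  refine ⟨_, pi3_second v w, _, _, (Pos.gen _).add (Pos.gen _), (Pos.gen _).add (Pos.gen _), rfl,
    ?_, ?_⟩
  · simp [nu, tr_gr, sz_zero]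
  · simp [nu, tr_gr]

lemma rep3_Psi' (v w : Col d) (n : ℕ) (hn : 0 < n) {ε : ℝ}
    (h : (n : ℝ) ^ 2 * sz v + ((n : ℝ)⁻¹) ^ 2 * sz w ≤ ε / 2) : Rep3 a (Psi a v w) ε ε := by
  have e : Psi a v w = Psi a ((n : ℝ) • v) ((n : ℝ)⁻¹ • w) := by
    have h1 : ((n : ℝ) • v) = (n : ℚ) • v := by
      rw [← Rat.cast_smul_eq_qsmul ℝ]; simp
    have h2 : ((n : ℝ)⁻¹ • w) = (n : ℚ)⁻¹ • w := by
      rw [← Rat.cast_smul_eq_qsmul ℝ]; simp
    have hn' : (n : ℚ) ≠ 0 := by positivity
    rw [h1, h2, map_smul, map_smul, LinearMap.smul_apply, smul_smul, inv_mul_cancel₀ hn', one_smul]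
  rw [e]
  have h1 := sz_add_le ((n : ℝ) • v) ((n : ℝ)⁻¹ • w)
  have h2 := sz_nonneg ((n : ℝ) • v)
  have h3 := sz_nonneg ((n : ℝ)⁻¹ • w)
  rw [← sz_smul, ← sz_smul] at h
  exact (rep3_Psi _ _).mono (by linarith) (by linarith)

lemma Psi_comm (v w : Col d) : Psi a v w = Psi a w v := by
  rw [← pi3_second, ← pi3_second, add_comm v w, add_comm (nu a v)]

/-- a pair with one very small entry is cheap -/
lemma exists_small (w : Col d) {ε : ℝ} (hε : 0 < ε) :
    ∃ δ, 0 < δ ∧ ∀ v : Col d, sz v ≤ δ → Rep3 a (Psi a v w) ε ε := by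
  obtain ⟨n, hn⟩ := exists_nat_ge (max 1 (4 * sz w / ε))
  have h1 : (1 : ℝ) ≤ n := le_trans (le_max_left _ _) hn
  have h2 : 4 * sz w ≤ n * ε := by
    have := le_trans (le_max_right _ _) hn
    rwa [div_le_iff₀ hε] at this
  have hn0 : 0 < n := by exact_mod_cast (lt_of_lt_of_le one_pos h1)
  refine ⟨ε / 4 / n ^ 2, by positivity, fun v hv => rep3_Psi' v w n hn0 ?_⟩
  have h3 : (n : ℝ) ^ 2 * sz v ≤ ε / 4 := by
    rwa [le_div_iff₀ (by positivity), mul_comm] at hv
  have h4 : ((n : ℝ)⁻¹) ^ 2 * sz w ≤ ε / 4 := by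
    rw [inv_pow, ← div_eq_inv_mul, div_le_iff₀ (by positivity)]
    have : (n : ℝ) * ε ≤ n ^ 2 * ε := mul_le_mul_of_nonneg_right (by nlinarith) hε.le
    linarith
  linarith

variable (a) in
def Cheap : AddSubgroup (W3 I d) where
  carrier := {ζ | ∀ ε, 0 < ε → Rep3 a ζ ε ε}
  zero_mem' := fun ε hε => ⟨0, map_zero _, Rep.zero.mono hε.le hε.le⟩
  add_mem' := fun h h' ε hε => by
    have := (h (ε / 2) (by positivity)).add (h' (ε / 2) (by positivity))
    rwa [add_halves] at this
  neg_mem' := fun h ε hε => (h ε hε).neg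

lemma cheap_zero_left (v w : Col d) (hv : sz v = 0) : Psi a v w ∈ Cheap a := by
  intro ε hε
  obtain ⟨δ, hδ, h⟩ := exists_small (a := a) w hε
  exact h v (hv ▸ hδ.le)

def smulQ (v : Col d) : ℝ →ₗ[ℚ] Col d := (LinearMap.toSpanSingleton ℝ _ v).restrictScalars ℚ

@[simp] lemma smulQ_apply (v : Col d) (s : ℝ) : smulQ v s = s • v := by simp [smulQ]

variable (a) in
def PsiT (v w : Col d) : ℝ ⊗[ℚ] ℝ →ₗ[ℚ] W3 I d :=
  TensorProduct.lift ((Psi a).compl₁₂ (smulQ v) (smulQ w))

lemma PsiT_tmul (v w : Col d) (s t : ℝ) : PsiT a v w (s ⊗ₜ t) = Psi a (s • v) (t • w) := by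
  simp [PsiT]

lemma cheap_PsiT (v w : Col d) (t : ℝ ⊗[ℚ] ℝ) :
    PsiT a v w t - Psi a v (Algebra.TensorProduct.lmul' ℚ t • w) ∈ Cheap a := by
  induction t using TensorProduct.induction_on with
  | zero => simp
  | add x y hx hy =>
    have := (Cheap a).add_mem hx hy
    convert this using 1
    simp only [map_add, add_smul]
    abel
  | tmul s t =>
    intro ε hε
    obtain ⟨δ1, hδ1, h1⟩ := exists_small (a := a) (t • w) (half_pos hε)
    obtain ⟨δ2, hδ2, h2⟩ := exists_small (a := a) v (half_pos hε)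
    have hv := sz_nonneg v
    have hw := sz_nonneg (t • w)
    set M := sz v + sz (t • w) + 1
    have hM : 0 < M := by positivity
    obtain ⟨q, hq⟩ := exists_rat_near s (ε := min 1 (min δ1 δ2 / M)) (by positivity)
    have hq1 : |s - q| ≤ 1 := (hq.le.trans (min_le_left _ _))
    have hq2 : |s - q| * M ≤ min δ1 δ2 := by
      have := hq.le.trans (min_le_right _ _)
      rwa [le_div_iff₀ hM] at this
    have hq3 : (s - q) ^ 2 ≤ |s - q| := by
      rw [← sq_abs]; nlinarith [abs_nonneg (s - q)]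
    have hm1 := min_le_left δ1 δ2
    have hm2 := min_le_right δ1 δ2
    have ha := abs_nonneg (s - q)
    have e1 := h1 ((s - q) • v) (by
      rw [sz_smul]
      calc _ ≤ |s - q| * M := by gcongr; simp only [M]; linarith
        _ ≤ _ := by linarith)
    have e2 := h2 ((s - q) • (t • w)) (by
      rw [sz_smul]
      calc _ ≤ |s - q| * M := by gcongr; simp only [M]; linarith
        _ ≤ _ := by linarith)
    have := e1.add e2.neg
    rw [add_halves] at this
    convert this using 1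
    rw [PsiT_tmul, Algebra.TensorProduct.lmul'_apply_tmul, Psi_comm _ v, mul_smul, sub_smul,
      sub_smul, map_sub, map_sub, LinearMap.sub_apply, Rat.cast_smul_eq_qsmul,
      Rat.cast_smul_eq_qsmul, map_smul (Psi a v) q, map_smul (Psi a) q, LinearMap.smul_apply]
    abel

lemma PsiT_fst (o o' : Option (Fin d)) (t : ℝ ⊗[ℚ] ℝ) (i : I) :
    (PsiT a (bas o) (bas o') t).1 i
      = TensorProduct.lift beta ((hom (a i) o ⊗ₜ[ℚ] hom (a i) o') * t) := by
  induction t using TensorProduct.induction_on with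
  | zero => simp
  | add x y hx hy => simp [mul_add, hx, hy]
  | tmul s t => simp [PsiT_tmul, Psi_apply, lin_bas, mul_comm]

lemma PsiT_snd (v w : Col d) (t : ℝ ⊗[ℚ] ℝ) :
    (PsiT a v w t).2 = (Psi a v (Algebra.TensorProduct.lmul' ℚ t • w)).2 := by
  induction t using TensorProduct.induction_on with
  | zero => simp
  | add x y hx hy => simp [hx, hy, add_smul]
  | tmul s t =>
    ext α β
    simp [PsiT_tmul, Psi_apply, symm2]
    ring

/-- the tensor condition over the reals -/
def RealTensor (a : I → Fin d → ℝ) : Prop :=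
  ∃ P : Option (Fin d) → Option (Fin d) → ℝ ⊗[ℚ] ℝ,
    (∀ i, ∑ o, ∑ o', (hom (a i) o ⊗ₜ[ℚ] hom (a i) o') * P o o' = 0) ∧
    ∀ α β, Algebra.TensorProduct.lmul' ℚ (P (some α) (some β)) = if α = β then 1 else 0

lemma rep3_diag (v : Col d) : Rep3 a (Psi a v v) (sz v + sz v) 0 := by
  have := (rep3_Psi (a := a) v (-v)).neg
  simpa [sz_zero, show sz (-v) = sz v by simp [sz]] using this

lemma lev_three (h : RealTensor a) : Lev a fun ξ => ∀ i, ξ i ∈ Fil 3 := by
  obtain ⟨P, h1, h2⟩ := h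
  set ζ : W3 I d := ∑ o, ∑ o', PsiT a (bas o) (bas o') (P o o') with hζ
  set ζ1 : W3 I d := ∑ o, ∑ o', Psi a (bas o) (Algebra.TensorProduct.lmul' ℚ (P o o') • bas o')
    with hζ1
  set ζ2 : W3 I d := ∑ α : Fin d, Psi a (bas (some α)) (bas (some α)) with hζ2
  have c1 : ζ - ζ1 ∈ Cheap a := by
    rw [hζ, hζ1, ← Finset.sum_sub_distrib]
    refine sum_mem fun o _ => ?_
    rw [← Finset.sum_sub_distrib]
    exact sum_mem fun o' _ => cheap_PsiT _ _ _
  have e12 : ζ1 = (∑ o', Psi a (bas none) (Algebra.TensorProduct.lmul' ℚ (P none o') • bas o'))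
      + (∑ α : Fin d, Psi a (bas (some α))
        (Algebra.TensorProduct.lmul' ℚ (P (some α) none) • bas none)) + ζ2 := by
    rw [hζ1, hζ2, Fintype.sum_option, add_assoc, ← Finset.sum_add_distrib]
    congr 1
    refine Finset.sum_congr rfl fun α _ => ?_
    rw [Fintype.sum_option]
    congr 1
    simp only [h2]
    rw [Finset.sum_eq_single α]
    · simp
    · intro β _ hβ; simp [hβ.symm]
    · simp
  have c2 : ζ1 - ζ2 ∈ Cheap a := by
    rw [e12, add_sub_cancel_right]
    refine add_mem (sum_mem fun o _ => cheap_zero_left _ _ sz_bas_none) (sum_mem fun α _ => ?_)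
    rw [Psi_comm]
    exact cheap_zero_left _ _ (by rw [sz_smul, sz_bas_none, mul_zero])
  have c3 : ζ - ζ2 ∈ Cheap a := by simpa using add_mem c1 c2
  have r2 : ∃ s, Rep3 a ζ2 s 0 := by
    rw [hζ2]
    induction (Finset.univ : Finset (Fin d)) using Finset.induction_on with
    | empty => exact ⟨0, 0, by simp, Rep.zero⟩
    | insert α s hα ih =>
      obtain ⟨r, hr⟩ := ih
      rw [Finset.sum_insert hα]
      exact ⟨_, by simpa using (rep3_diag (a := a) (bas (some α))).add hr⟩
  have f1 : ∀ i, ζ.1 i = 0 := by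
    intro i
    have := congrArg (TensorProduct.lift beta) (h1 i)
    rw [map_zero, map_sum] at this
    rw [← this, hζ, Prod.fst_sum, Finset.sum_apply]
    refine Finset.sum_congr rfl fun o _ => ?_
    rw [map_sum, Prod.fst_sum, Finset.sum_apply]
    exact Finset.sum_congr rfl fun o' _ => PsiT_fst _ _ _ _
  have f2 : ζ.2 = sc d 2 := by
    have : ζ.2 = ζ1.2 := by
      simp only [hζ, hζ1, Prod.snd_sum, PsiT_snd]
    rw [this, e12, hζ2]
    ext α β
    simp only [Prod.snd_add, Prod.snd_sum, Psi_apply, Pi.add_apply, Finset.sum_apply, symm2, bas,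
      sc_apply]
    by_cases hαβ : α = β
    · subst hαβ
      simp [Pi.single_apply, Finset.sum_add_distrib]
      norm_num
    · simp [Pi.single_apply, hαβ, Finset.sum_add_distrib]
  intro η hη
  obtain ⟨s, hs⟩ := r2
  obtain ⟨w, ew, hw⟩ := (c3 η hη).add hs
  rw [sub_add_cancel] at ew
  refine ⟨w, 2, _, two_pos, fun i => ?_, ?_, hw.mono le_rfl (by linarith)⟩
  · have := f1 i
    rw [← ew, pi3_apply] at this
    exact (Submodule.Quotient.mk_eq_zero _).1 this
  · rw [← f2, ← ew]; rfl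

end

end Vale.Agent.P058
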