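import Mathlib.Combinatorics.Hindman
import Mathlib.GroupTheory.FreeGroup.Basic
import Mathlib.Algebra.FreeMonoid.Basic
import Mathlib.Algebra.Group.MinimalAxioms
import Vale.Agent.P058.Core

/-!
The ultrafilter layer: a group inside the Stone-Cech compactification of a monoid, and closures of
graded families of tuples.
-/

namespace Vale.Agent.P058

open Filter Topology

section MinIdem

variable {M : Type*} [Semigroup M]

structure MinIdem (M : Type*) [Semigroup M] where
  e : M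
  idem : e * e = e
  min : ∀ x, ∃ y, y * (x * e) = e

theorem exists_minIdem [TopologicalSpace M] [CompactSpace M] [T2Space M] [Nonempty M]
    (hc : ∀ r : M, Continuous (· * r)) : Nonempty (MinIdem M) := by
  let S : Set (Set M) := {N | IsClosed N ∧ N.Nonempty ∧ ∀ x, ∀ m ∈ N, x * m ∈ N}
  have : ∃ N', Minimal (· ∈ S) N' := by
    refine zorn_superset _ fun c hcs hc => ?_
    refine ⟨⋂₀ c, ⟨isClosed_sInter fun t ht => (hcs ht).1, ?_, fun x m hm => ?_⟩, fun s hs =>
      Set.sInter_subset_of_mem hs⟩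
    · obtain rfl | hcnemp := c.eq_empty_or_nonempty
      · rw [Set.sInter_empty]
        apply Set.univ_nonempty
      have := hcnemp.coe_sort
      rw [Set.sInter_eq_iInter]
      refine IsCompact.nonempty_iInter_of_directed_nonempty_isCompact_isClosed _ ?_ ?_ ?_ ?_
      · exact DirectedOn.directed_val (IsChain.directedOn hc.symm)
      exacts [fun i => (hcs i.prop).2.1, fun i => (hcs i.prop).1.isCompact,
        fun i => (hcs i.prop).1]
    · rw [Set.mem_sInter]
      exact fun t ht => (hcs ht).2.2 x m (Set.mem_sInter.mp hm t ht)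
  obtain ⟨N, hN⟩ := this
  obtain ⟨hcl, hne, hmul⟩ := hN.prop
  obtain ⟨e, he, hee⟩ := exists_idempotent_in_compact_subsemigroup hc N hne hcl.isCompact
    fun x _ y hy => hmul x y hy
  refine ⟨⟨e, hee, fun x => ?_⟩⟩
  have : Set.range (· * (x * e)) = N := by
    apply hN.eq_of_subset
    · refine ⟨(isCompact_range (hc _)).isClosed, Set.range_nonempty _, ?_⟩
      rintro z _ ⟨y, rfl⟩
      exact ⟨z * y, mul_assoc _ _ _⟩
    · rintro _ ⟨y, rfl⟩
      exact hmul _ _ (hmul _ _ he)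
  rw [← this] at he
  exact he

namespace MinIdem

variable (E : MinIdem M)

def G : Type _ := {g : M // E.e * g = g ∧ g * E.e = g}

def sand (p : M) : E.G := ⟨E.e * p * E.e, by
  rw [← mul_assoc, ← mul_assoc, E.idem], by rw [mul_assoc, E.idem]⟩

instance : Mul E.G := ⟨fun a b => ⟨a.1 * b.1, by rw [← mul_assoc, a.2.1],
  by rw [mul_assoc, b.2.2]⟩⟩

instance : One E.G := ⟨⟨E.e, E.idem, E.idem⟩⟩

noncomputable instance : Inv E.G := ⟨fun a => E.sand (E.min a.1).choose⟩

noncomputable instance : Group E.G := Group.ofLeftAxioms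
  (fun a b c => Subtype.ext (mul_assoc a.1 b.1 c.1))
  (fun a => Subtype.ext a.2.1)
  (fun a => Subtype.ext (by
    have h := (E.min a.1).choose_spec
    change E.e * (E.min a.1).choose * E.e * a.1 = E.e
    generalize (E.min a.1).choose = y at h ⊢
    rw [mul_assoc _ E.e, a.2.1, mul_assoc]
    rw [a.2.2] at h
    rw [h, E.idem]))

@[simp] lemma val_mul (a b : E.G) : (a * b).1 = a.1 * b.1 := rfl
@[simp] lemma val_one : (1 : E.G).1 = E.e := rfl
lemma val_sand (p : M) : (E.sand p).1 = E.e * p * E.e := rfl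

lemma sand_val (a : E.G) : E.sand a.1 = a := Subtype.ext (by
  rw [val_sand, a.2.1, a.2.2])

end MinIdem

end MinIdem

attribute [local instance] Ultrafilter.mul Ultrafilter.semigroup

section Closure

variable {S : Type*} [Monoid S] {I : Type*}

lemma pure_mul_pure (x y : S) : (pure x * pure y : Ultrafilter S) = pure (x * y) := by
  apply Ultrafilter.coe_inj.mp
  apply Filter.ext'
  intro p
  rw [Ultrafilter.eventually_mul]
  simp

lemma continuous_pure_mul (x : S) : Continuous (fun q : Ultrafilter S => pure x * q) :=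
  ultrafilterBasis_is_basis.continuous_iff.2 <| Set.forall_mem_range.mpr fun s => by
    have := ultrafilter_isOpen_basic {m : S | x * m ∈ s}
    exact this

def pr (x : I → S) : I → Ultrafilter S := fun i => pure (x i)

def cl (X : Set (I → S)) : Set (I → Ultrafilter S) := closure (pr '' X)

omit [Monoid S] in
lemma cl_mono {X Y : Set (I → S)} (h : X ⊆ Y) : cl X ⊆ cl Y :=
  closure_mono (Set.image_mono h)

omit [Monoid S] in
lemma isClosed_cl (X : Set (I → S)) : IsClosed (cl X) := isClosed_closure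

omit [Monoid S] in
lemma pr_mem_cl {X : Set (I → S)} {x} (h : x ∈ X) : pr x ∈ cl X := subset_closure ⟨x, h, rfl⟩

lemma continuous_mul_pi (q : I → Ultrafilter S) : Continuous (fun p : I → Ultrafilter S => p * q) :=
  continuous_pi fun i => (Ultrafilter.continuous_mul_left (q i)).comp (continuous_apply i)

lemma cl_mul {X Y Z : Set (I → S)} (h : ∀ x ∈ X, ∀ y ∈ Y, x * y ∈ Z) {p q}
    (hp : p ∈ cl X) (hq : q ∈ cl Y) : p * q ∈ cl Z := by
  have h1 : ∀ x ∈ X, pr x * q ∈ cl Z := by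
    intro x hx
    have hc : Continuous (fun q : I → Ultrafilter S => pr x * q) :=
      continuous_pi fun i => (continuous_pure_mul (x i)).comp (continuous_apply i)
    refine map_mem_closure hc hq ?_
    rintro _ ⟨y, hy, rfl⟩
    refine ⟨x * y, h x hx y hy, ?_⟩
    ext1 i
    exact (pure_mul_pure _ _).symm
  have : (fun p : I → Ultrafilter S => p * q) ⁻¹' cl Z ⊇ cl X := by
    refine closure_minimal ?_ ((isClosed_cl Z).preimage (continuous_mul_pi q))
    rintro _ ⟨x, hx, rfl⟩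
    exact h1 x hx
  exact this hp

omit [Monoid S] in
lemma diag_mem_cl {X : Set (I → S)} (h : ∀ w, (fun _ => w) ∈ X) (p : Ultrafilter S) :
    (fun _ => p) ∈ cl X := by
  have hc : Continuous (fun p : Ultrafilter S => (fun _ : I => p)) :=
    continuous_pi fun _ => continuous_id
  have hp : p ∈ closure (Set.range (pure : S → Ultrafilter S)) := denseRange_pure p
  refine map_mem_closure hc hp ?_
  rintro _ ⟨w, rfl⟩
  exact ⟨_, h w, rfl⟩

end Closure

/-- A graded family of tuples in a monoid. -/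
structure Graded (S : Type*) [Monoid S] (I : Type*) (Γ : Type*) [AddCommMonoid Γ] where
  T : Γ → Set (I → S)
  sc : ℝ →+ Γ
  mul : ∀ {g g' x x'}, x ∈ T g → x' ∈ T g' → x * x' ∈ T (g + g')
  diag : ∀ w, (fun _ => w) ∈ T 0

namespace Graded

variable {S : Type*} [Monoid S] {I : Type*} {Γ : Type*} [AddCommMonoid Γ]
  (R : Graded S I Γ) (E : MinIdem (Ultrafilter S))

def B (g : Γ) : Set (I → E.G) := {h | (fun i => (h i).1) ∈ cl (R.T g)}

def X (η : ℝ) : Set (I → S) := {x | ∃ t, 0 ≤ t ∧ t ≤ η ∧ x ∈ R.T (R.sc t)}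

def A0 : Set (I → Ultrafilter S) := {q | ∀ η, 0 < η → q ∈ cl (R.X η)}

lemma B_mul {g g' h h'} (hh : h ∈ R.B E g) (hh' : h' ∈ R.B E g') : h * h' ∈ R.B E (g + g') :=
  cl_mul (fun _ hx _ hy => R.mul hx hy) hh hh'

lemma B_diag (g : E.G) : (fun _ => g) ∈ R.B E 0 := diag_mem_cl R.diag _

lemma sand_mem_B {g q} (hq : q ∈ cl (R.T g)) : (fun i => E.sand (q i)) ∈ R.B E g := by
  have h1 := cl_mul (Z := R.T g) (fun _ hx _ hy => by simpa using R.mul hx hy)
    (diag_mem_cl R.diag E.e) hq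
  exact cl_mul (Z := R.T g) (fun _ hx _ hy => by simpa using R.mul hx hy) h1
    (diag_mem_cl R.diag E.e)

lemma A0_mul {p q} (hp : p ∈ R.A0) (hq : q ∈ R.A0) : p * q ∈ R.A0 := by
  intro η hη
  refine cl_mul ?_ (hp (η / 2) (by positivity)) (hq (η / 2) (by positivity))
  rintro x ⟨t, h0, h1, hx⟩ y ⟨t', h0', h1', hy⟩
  exact ⟨t + t', by positivity, by linarith, by rw [map_add]; exact R.mul hx hy⟩

lemma A0_diag (p : Ultrafilter S) : (fun _ => p) ∈ R.A0 := fun η hη =>
  diag_mem_cl (X := R.X η) (fun w => ⟨0, le_rfl, hη.le, by rw [map_zero]; exact R.diag w⟩) p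

lemma isClosed_A0 : IsClosed R.A0 := by
  have : R.A0 = ⋂ η, ⋂ (_ : 0 < η), cl (R.X η) := by ext; simp [A0]
  rw [this]
  exact isClosed_iInter fun η => isClosed_iInter fun _ => isClosed_cl _

def H0 : Subgroup (I → E.G) where
  carrier := {h | (fun i => (h i).1) ∈ R.A0}
  one_mem' := R.A0_diag _
  mul_mem' := fun ha hb => R.A0_mul ha hb
  inv_mem' := by
    intro h hh
    set q0 : I → Ultrafilter S := fun i => (h i).1 with hq0
    obtain ⟨f, ⟨q, hq, rfl⟩, hf⟩ := exists_idempotent_in_compact_subsemigroup continuous_mul_pi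
      ((· * q0) '' R.A0) ⟨_, _, hh, rfl⟩ (R.isClosed_A0.isCompact.image (continuous_mul_pi q0))
      (by
        rintro _ ⟨a, ha, rfl⟩ _ ⟨b, hb, rfl⟩
        exact ⟨a * q0 * b, R.A0_mul (R.A0_mul ha hh) hb, mul_assoc _ _ _⟩)
    have key : ∀ i, (h i)⁻¹ = E.sand (q i) := by
      intro i
      have hfi : q i * (h i).1 * (q i * (h i).1) = q i * (h i).1 := congrFun hf i
      have h1 : (E.sand (q i) * h i).1 = E.e * (q i * (h i).1) := by
        rw [E.val_mul, E.val_sand, mul_assoc, (h i).2.1, mul_assoc]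
      have h2 : E.sand (q i) * h i * (E.sand (q i) * h i) = E.sand (q i) * h i := by
        apply Subtype.ext
        rw [E.val_mul, h1, mul_assoc, mul_assoc (q i), ← mul_assoc (h i).1, (h i).2.2,
          ← mul_assoc (q i), hfi]
      have h3 : E.sand (q i) * h i = 1 := by simpa using h2
      exact (eq_inv_of_mul_eq_one_left h3).symm
    have : (fun i => (h⁻¹ i).1) = (fun _ => E.e) * q * (fun _ => E.e) := by
      ext1 i
      rw [Pi.inv_apply, key]
      rfl
    change (fun i => (h⁻¹ i).1) ∈ R.A0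
    rw [this]
    exact R.A0_mul (R.A0_mul (R.A0_diag _) hq) (R.A0_diag _)

lemma adapt (J : Set I) (hJ : ∀ t, 0 < t → ∃ a ∈ R.B E (R.sc t), ∀ j ∈ J, a j = 1)
    (w : I → E.G) (hw : w ∈ R.H0 E) (t : ℝ) (ht : 0 < t) :
    ∃ w' ∈ R.B E (R.sc t), ∀ j ∈ J, w' j = w j := by
  let Φ : (I → Ultrafilter S) → (J → Ultrafilter S) := fun p j => p j * E.e
  let ρ : (I → Ultrafilter S) → (J → Ultrafilter S) := fun p j => p j
  have hΦ : Continuous Φ :=
    continuous_pi fun j => (Ultrafilter.continuous_mul_left _).comp (continuous_apply j.1)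
  have hρ : Continuous ρ := continuous_pi fun j => continuous_apply j.1
  have hcl : IsClosed (Φ ⁻¹' (ρ '' cl (R.T (R.sc t)))) :=
    ((isClosed_cl _).isCompact.image hρ).isClosed.preimage hΦ
  have : cl (R.X (t / 2)) ⊆ Φ ⁻¹' (ρ '' cl (R.T (R.sc t))) := by
    refine closure_minimal ?_ hcl
    rintro _ ⟨x, ⟨τ, h0, h1, hx⟩, rfl⟩
    obtain ⟨a, ha, ea⟩ := hJ (t - τ) (by linarith)
    refine ⟨pr x * fun i => (a i).1, ?_, ?_⟩
    · refine cl_mul (fun y hy z hz => ?_) (pr_mem_cl hx) ha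
      have := R.mul hy hz
      rwa [← map_add, add_sub_cancel] at this
    · ext1 j
      simp only [ρ, Φ, Pi.mul_apply, ea j j.2, E.val_one]
  obtain ⟨q, hq, e⟩ := this (hw (t / 2) (by positivity))
  refine ⟨_, R.sand_mem_B E hq, fun j hj => ?_⟩
  have : q j = (w j).1 * E.e := congrFun e ⟨j, hj⟩
  rw [this, (w j).2.2, E.sand_val]

lemma compact (J : Set I) (g : Γ)
    (h : ∀ (κ : Type) [Finite κ] (χ : E.G → κ),
      ∃ h ∈ R.B E g, ∀ j ∈ J, ∀ j' ∈ J, χ (h j) = χ (h j')) :
    ∃ h ∈ R.B E g, ∀ j ∈ J, h j = 1 := by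
  classical
  let C : Set S → Set (I → Ultrafilter S) := fun s =>
    {q | ∀ j ∈ J, ∀ j' ∈ J, s ∈ q j → s ∈ q j'}
  have hC : ∀ s, IsClosed (C s) := by
    intro s
    have : C s = ⋂ j, ⋂ (_ : j ∈ J), ⋂ j', ⋂ (_ : j' ∈ J),
        ((fun q => q j) ⁻¹' {u | s ∈ u})ᶜ ∪ ((fun q => q j') ⁻¹' {u | s ∈ u}) := by
      ext q; simp [C, imp_iff_not_or]
    rw [this]
    refine isClosed_iInter fun j => isClosed_iInter fun _ => isClosed_iInter fun j' =>
      isClosed_iInter fun _ => IsClosed.union ?_ ?_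
    · exact ((ultrafilter_isOpen_basic s).preimage (continuous_apply j)).isClosed_compl
    · exact (ultrafilter_isClosed_basic s).preimage (continuous_apply j')
  obtain ⟨q, hq, hqC⟩ := (isClosed_cl (R.T g)).isCompact.inter_iInter_nonempty C hC (by
    intro u
    obtain ⟨h, hh, e⟩ := h (Fin u.card → Prop) fun g k => (u.equivFin.symm k).1 ∈ g.1
    refine ⟨_, hh, ?_⟩
    simp only [Set.mem_iInter]
    intro s hs j hj j' hj' hsj
    have := congrFun (e j hj j' hj') (u.equivFin ⟨s, hs⟩)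
    simp only [Equiv.symm_apply_apply] at this
    exact this ▸ hsj)
  rw [Set.mem_iInter] at hqC
  have heq : ∀ j ∈ J, ∀ j' ∈ J, q j = q j' := fun j hj j' hj' =>
    Ultrafilter.ext fun s => ⟨hqC s j hj j' hj', hqC s j' hj' j hj⟩
  rcases J.eq_empty_or_nonempty with rfl | ⟨j0, hj0⟩
  · exact ⟨_, R.sand_mem_B E hq, by simp⟩
  · refine ⟨(fun i => E.sand (q i)) * fun _ => (E.sand (q j0))⁻¹, ?_, fun j hj => ?_⟩
    · simpa using R.B_mul E (R.sand_mem_B E hq) (R.B_diag E _)
    · simp [heq j hj j0 hj0]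

lemma limit_pair (i j : I) (α : E.G)
    (h : ∀ η, 0 < η → ∃ t, 0 ≤ t ∧ t ≤ η ∧ ∃ h ∈ R.B E (R.sc t), h j = 1 ∧ h i = α) :
    ∃ h ∈ R.H0 E, h j = 1 ∧ h i = α := by
  let C : Set.Ioi (0 : ℝ) → Set (I → Ultrafilter S) := fun η =>
    cl (R.X η) ∩ ({q | q j = E.e} ∩ {q | q i = α.1})
  have hC : ∀ η, IsClosed (C η) := fun η =>
    (isClosed_cl _).inter ((isClosed_eq (continuous_apply j) continuous_const).inter
      (isClosed_eq (continuous_apply i) continuous_const))
  have hmono : ∀ η η' : Set.Ioi (0 : ℝ), η ≤ η' → C η ⊆ C η' := by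
    intro η η' hle
    refine Set.inter_subset_inter_left _ (cl_mono ?_)
    rintro x ⟨t, h0, h1, hx⟩
    exact ⟨t, h0, h1.trans hle, hx⟩
  have : Nonempty (Set.Ioi (0 : ℝ)) := ⟨⟨1, by simp⟩⟩
  obtain ⟨q, hq⟩ := IsCompact.nonempty_iInter_of_directed_nonempty_isCompact_isClosed C
    (fun η η' => ⟨min η η', hmono _ _ (min_le_left _ _), hmono _ _ (min_le_right _ _)⟩)
    (fun η => by
      obtain ⟨t, h0, h1, k, hk, e1, e2⟩ := h η η.2
      refine ⟨fun i => (k i).1, cl_mono (Y := R.X η) (fun x hx => ⟨t, h0, h1, hx⟩) hk, ?_, ?_⟩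
      · simp [e1]
      · simp [e2])
    (fun η => (hC η).isCompact) hC
  rw [Set.mem_iInter] at hq
  have hq0 : q ∈ R.A0 := fun η hη => (hq ⟨η, hη⟩).1
  refine ⟨fun i => E.sand (q i), R.A0_mul (R.A0_mul (R.A0_diag _) hq0) (R.A0_diag _), ?_, ?_⟩
  · have : q j = (1 : E.G).1 := (hq ⟨1, by simp⟩).2.1
    simp only [this, E.sand_val]
  · have : q i = α.1 := (hq ⟨1, by simp⟩).2.2
    simp only [this, E.sand_val]

lemma extract [Finite I] {g : Γ} (h : (1 : I → E.G) ∈ R.B E g) {κ : Type*} [Finite κ]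
    (χ : S → κ) : ∃ x ∈ R.T g, ∃ c, ∀ i, χ (x i) = c := by
  obtain ⟨c, hc⟩ : ∃ c, χ ⁻¹' {c} ∈ E.e := by
    have : (⋃ c ∈ (Set.univ : Set κ), χ ⁻¹' {c}) ∈ E.e := by
      have : (⋃ c ∈ (Set.univ : Set κ), χ ⁻¹' {c}) = Set.univ := by ext; simp
      rw [this]; exact univ_mem
    obtain ⟨c, _, hc⟩ := (Ultrafilter.finite_biUnion_mem_iff Set.finite_univ).1 this
    exact ⟨c, hc⟩
  have ho : IsOpen (⋂ i : I, (fun q : I → Ultrafilter S => q i) ⁻¹' {u | χ ⁻¹' {c} ∈ u}) :=
    isOpen_iInter_of_finite fun i => (ultrafilter_isOpen_basic _).preimage (continuous_apply i)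
  obtain ⟨_, h1, x, hx, rfl⟩ := mem_closure_iff.1 h _ ho (by
    rw [Set.mem_iInter]; intro i; exact hc)
  rw [Set.mem_iInter] at h1
  exact ⟨x, hx, c, fun i => by simpa [pr] using h1 i⟩

end Graded

/-- positive words in the free group -/
inductive Sig {Λ C I Γ : Type*} [AddCommMonoid Γ] (ℓ : I → C → Λ) (gr : C → Γ) :
    Γ → (I → FreeGroup Λ) → Prop
  | diag (w : FreeGroup Λ) : Sig ℓ gr 0 (fun _ => w)
  | col (c : C) : Sig ℓ gr (gr c) (fun i => FreeGroup.of (ℓ i c))
  | mul {g g' h h'} : Sig ℓ gr g h → Sig ℓ gr g' h' → Sig ℓ gr (g + g') (h * h')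

lemma map_lcs_top {F G : Type*} [Group F] [Group G] (φ : F →* G) (k : ℕ) :
    (lcs (⊤ : Subgroup F) k).map φ = lcs φ.range k := by
  induction k with
  | zero => simp [lcs, MonoidHom.range_eq_map]
  | succ k ih => rw [lcs, lcs, Subgroup.map_commutator, ih, MonoidHom.range_eq_map]

theorem ramsey_of_free {Λ C I Γ : Type*} [Fintype I] [AddCommMonoid Γ] (ℓ : I → C → Λ)
    (gr : C → Γ) (sc : ℝ →+ Γ) (y0 : Λ)
    (hdiag : ∀ y, ∃ c, gr c = 0 ∧ ∀ i, ℓ i c = y)
    (hne : ∀ t, 0 ≤ t → ∃ h, Sig ℓ gr (sc t) h)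
    (hpair : ∀ i j t, 0 < t → ∃ h, Sig ℓ gr (sc t) h ∧ h i = h j)
    (hstep : ∀ i j, i ≠ j → ∀ y η, 0 < η → ∃ t, 0 ≤ t ∧ t ≤ η ∧ ∃ h, Sig ℓ gr (sc t) h ∧
      h j = 1 ∧ h i = FreeGroup.of y * (FreeGroup.of y0)⁻¹)
    (hratio : ∀ (k : ℕ) (γ η : ℝ), 0 < γ → 0 < η → ∃ δ, 0 ≤ δ ∧ δ ≤ η ∧ ∃ b σ,
      Sig ℓ gr (sc δ) b ∧ Sig ℓ gr (sc (δ + γ)) σ ∧ ∀ i, b i * (σ i)⁻¹ ∈ lcs ⊤ k)
    {κ : Type*} [Finite κ] (χ : List Λ → κ) :
    ∃ L : List C, (L.map gr).sum = sc 1 ∧ ∃ c, ∀ i, χ (L.map (ℓ i)) = c := by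
  obtain ⟨E⟩ := exists_minIdem (M := Ultrafilter (FreeMonoid Λ)) Ultrafilter.continuous_mul_left
  let R : Graded (FreeMonoid Λ) I Γ :=
    { T := fun g => {x | ∃ L : List C, (L.map gr).sum = g ∧
        ∀ i, x i = FreeMonoid.ofList (L.map (ℓ i))}
      sc := sc
      mul := by
        rintro g g' x x' ⟨L, rfl, e⟩ ⟨L', rfl, e'⟩
        exact ⟨L ++ L', by simp, fun i => by simp [e, e']⟩
      diag := by
        intro w
        choose c hc using hdiag
        refine ⟨w.toList.map c, ?_, fun i => ?_⟩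
        · rw [List.map_map]
          apply List.sum_eq_zero
          intro x hx
          obtain ⟨y, _, rfl⟩ := List.mem_map.1 hx
          exact (hc y).1
        · have : (ℓ i ∘ c) = id := funext fun y => (hc y).2 i
          simp [List.map_map, this] }
  let ι : Λ → E.G := fun y => E.sand (pure (FreeMonoid.of y))
  let φ : FreeGroup Λ →* E.G := FreeGroup.lift fun y => ι y * (ι y0)⁻¹
  have hφ : ∀ g h, Sig ℓ gr g h → (fun i => φ (h i)) ∈ R.B E g := by
    intro g h hs
    induction hs with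
    | diag w => exact R.B_diag E _
    | col c =>
      have h1 : (fun i => ι (ℓ i c)) ∈ R.B E (gr c) :=
        R.sand_mem_B E (pr_mem_cl (x := fun i => FreeMonoid.of (ℓ i c)) ⟨[c], by simp, fun i => rfl⟩)
      have := R.B_mul E h1 (R.B_diag E (ι y0)⁻¹)
      rw [add_zero] at this
      convert this using 1
      ext i
      simp [φ]
    | mul _ _ ih ih' =>
      have := R.B_mul E ih ih'
      convert this using 1
      ext i
      simp
  let D : CoreData E.G I :=
    { K := fun t => R.B E (sc t)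
      H := R.H0 E
      N := φ.range
      mul := fun h h' => by rw [map_add]; exact R.B_mul E h h'
      diag := fun g => by rw [map_zero]; exact R.B_diag E g
      nonempty := fun t ht => by
        obtain ⟨h, hh⟩ := hne t ht
        exact ⟨_, hφ _ _ hh⟩
      adapt := fun J hJ w hw t ht => R.adapt E J hJ w hw t ht
      compact := fun J τ h => R.compact E J _ h
      diagH := fun g => R.A0_diag _
      pairH := by
        intro i j hij m hm
        let Mij : Subgroup E.G :=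
          { carrier := {m | ∃ h ∈ R.H0 E, h j = 1 ∧ h i = m}
            one_mem' := ⟨1, Subgroup.one_mem _, rfl, rfl⟩
            mul_mem' := by
              rintro _ _ ⟨h, hh, e, rfl⟩ ⟨h', hh', e', rfl⟩
              exact ⟨h * h', Subgroup.mul_mem _ hh hh', by simp [e, e'], rfl⟩
            inv_mem' := by
              rintro _ ⟨h, hh, e, rfl⟩
              exact ⟨h⁻¹, Subgroup.inv_mem _ hh, by simp [e], rfl⟩ }
        have : φ.range ≤ Mij := by
          rw [FreeGroup.range_lift_eq_closure, Subgroup.closure_le]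
          rintro _ ⟨y, rfl⟩
          refine R.limit_pair E i j _ fun η hη => ?_
          obtain ⟨t, h0, h1, h, hh, e1, e2⟩ := hstep i j hij y η hη
          exact ⟨t, h0, h1, _, hφ _ _ hh, by simp [e1], by simp [e2, φ]⟩
        exact this hm
      pair := fun i j t ht => by
        obtain ⟨h, hh, e⟩ := hpair i j t ht
        exact ⟨_, hφ _ _ hh, by simp [e]⟩
      ratio := fun k γ η hγ hη => by
        obtain ⟨δ, h0, h1, b, σ, hb, hσ, e⟩ := hratio k γ η hγ hη
        refine ⟨δ, h0, h1, _, hφ _ _ hb, _, hφ _ _ hσ, fun i => ?_⟩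
        rw [← map_lcs_top]
        exact ⟨_, e i, by simp⟩ }
  obtain ⟨a, ha, e⟩ := D.good_all Finset.univ 1 one_pos
  have : a = 1 := funext fun i => e i (by simp)
  subst this
  obtain ⟨x, ⟨L, hL, ex⟩, c, hc⟩ := R.extract E ha fun w => χ w.toList
  exact ⟨L, hL, c, fun i => by simpa [ex] using hc i⟩

end Vale.Agent.P058
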