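import Mathlib.Analysis.SpecialFunctions.Pow.Real
import Vale.Agent.P058.Tensor
import Vale.Agent.P058.Ultra

/-!
Sufficiency of the tensor condition, in terms of words of columns.
-/

namespace Vale.Agent.P058

noncomputable section

variable {d : ℕ} {I : Type*} {a : I → Fin d → ℝ}

lemma sig_word {Λ C I Γ : Type*} [AddCommMonoid Γ] (ℓ : I → C → Λ) (g : C → Γ) (L : List C) :
    Sig ℓ g (L.map g).sum (fun i => word (ℓ i) L) := by
  induction L with
  | nil => exact Sig.diag 1
  | cons c L ih =>
    have := (Sig.col (ℓ := ℓ) (gr := g) c).mul ih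
    simpa [Pi.mul_def] using this

lemma lcs_mono {G : Type*} [Group G] {N N' : Subgroup G} (h : N ≤ N') (k : ℕ) :
    lcs N k ≤ lcs N' k := by
  induction k with
  | zero => exact h
  | succ k ih => exact Subgroup.commutator_mono ih h

def padCol (c : Col d) (p : Fin d × Fin d) : Col d :=
  (0, fun μ => (√2)⁻¹ * ((if p.2 = μ then c.2 p.1 else 0) - (if p.1 = μ then c.2 p.2 else 0)))

def pad (c : Col d) : List (Col d) := (Finset.univ : Finset (Fin d × Fin d)).toList.map (padCol c)

lemma gram_pad (c : Col d) : gr c + ((pad c).map gr).sum = sc d (sz c) := by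
  rw [pad, List.map_map, Finset.sum_map_toList]
  ext μ ν
  have h2 : (√2)⁻¹ * (√2)⁻¹ = (1 / 2 : ℝ) := by
    rw [← mul_inv, Real.mul_self_sqrt (by norm_num)]; norm_num
  have : ∀ p : Fin d × Fin d, gr (padCol c p) μ ν = 1 / 2 *
      ((if p.2 = μ then if p.2 = ν then c.2 p.1 ^ 2 else 0 else 0)
      - (if p.2 = μ then if p.1 = ν then c.2 p.1 * c.2 p.2 else 0 else 0)
      - (if p.1 = μ then if p.2 = ν then c.2 p.1 * c.2 p.2 else 0 else 0)
      + (if p.1 = μ then if p.1 = ν then c.2 p.2 ^ 2 else 0 else 0)) := by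
    intro p
    simp only [gr, padCol]
    rw [mul_mul_mul_comm, h2]
    split_ifs <;> ring
  simp only [Pi.add_apply, Finset.sum_apply, Function.comp_apply, this]
  simp only [← Finset.mul_sum,
    Finset.sum_add_distrib, Finset.sum_sub_distrib, Fintype.sum_prod_type, sc_apply, gr, sz]
  by_cases h : μ = ν
  · subst h
    simp
    ring
  · simp [h]
    ring

lemma pad_lin (c : Col d) {x y : Fin d → ℝ} (s : ℝ) (h : ∀ α, c.2 α = s * (x α - y α)) :
    (pad c).map (lin x) = (pad c).map (lin y) := by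
  rw [pad, List.map_map, List.map_map]
  congr 1
  ext p
  simp only [Function.comp_apply, lin_apply, padCol, mul_assoc, ← Finset.mul_sum, sub_mul,
    Finset.sum_sub_distrib, ite_mul, zero_mul, Finset.sum_ite_eq, Finset.mem_univ, if_true, h]
  ring

lemma exists_gram (t : ℝ) (ht : 0 ≤ t) : ∃ L : List (Col d), (L.map gr).sum = sc d t := by
  refine ⟨(Finset.univ : Finset (Fin d)).toList.map fun α => (0, Pi.single α √t), ?_⟩
  rw [List.map_map, Finset.sum_map_toList]
  ext μ ν
  simp only [Finset.sum_apply, Function.comp_apply, gr, Pi.single_apply, sc_apply]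
  by_cases h : μ = ν
  · subst h; simp [Real.mul_self_sqrt ht]
  · simp [h]

lemma word_congr {Λ C C' : Type*} {f : C → Λ} {f' : C' → Λ} {L L'}
    (h : L.map f = L'.map f') : word f L = word f' L' := by
  have h1 : word f L = ((L.map f).map FreeGroup.of).prod := by
    simp [word, List.map_map, Function.comp_def]
  have h2 : word f' L' = ((L'.map f').map FreeGroup.of).prod := by
    simp [word, List.map_map, Function.comp_def]
  rw [h1, h2, h]

lemma sig_pair (i j : I) (t : ℝ) (ht : 0 < t) :
    ∃ h, Sig (fun i c => lin (a i) c) gr (sc d t) h ∧ h i = h j := by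
  obtain ⟨L, hL⟩ := exists_gram (d := d) (t / 2) (by positivity)
  let ρ : Col d → Col d := fun c => (lin (a i) c + lin (a j) c - c.1, -c.2)
  have hρ : ∀ k c, lin (a k) (ρ c) = lin (a i) c + lin (a j) c - lin (a k) c := by
    intro k c
    simp only [ρ, lin_apply (a k), Pi.neg_apply, neg_mul, Finset.sum_neg_distrib]
    ring
  have hg : ((L.map ρ).map gr).sum = sc d (t / 2) := by
    rw [← hL, List.map_map]
    congr 2
    ext c α β; simp [ρ, gr]
  have h1 := sig_word (fun i c => lin (a i) c) gr L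
  have h2 := sig_word (fun i c => lin (a i) c) gr (L.map ρ)
  have := (h1.mul (Sig.diag (word (lin (a i)) L)⁻¹)).mul h2
  rw [hL, hg, add_zero, ← map_add, add_halves] at this
  refine ⟨_, this, ?_⟩
  have e1 : word (fun c => lin (a i) c) (L.map ρ) = word (fun c => lin (a j) c) L :=
    word_congr (by simp [List.map_map, Function.comp_def, hρ])
  have e2 : word (fun c => lin (a j) c) (L.map ρ) = word (fun c => lin (a i) c) L :=
    word_congr (by simp [List.map_map, Function.comp_def, hρ])
  simp only [Pi.mul_apply, e1, e2]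
  simp

lemma sig_step {i j : I} (hij : a i ≠ a j) (y η : ℝ) (hη : 0 < η) :
    ∃ t, 0 ≤ t ∧ t ≤ η ∧ ∃ h, Sig (fun i c => lin (a i) c) gr (sc d t) h ∧
      h j = 1 ∧ h i = FreeGroup.of y * (FreeGroup.of 0)⁻¹ := by
  set N := ∑ α, (a i α - a j α) ^ 2 with hN
  have hN0 : 0 < N := by
    obtain ⟨α, hα⟩ := Function.ne_iff.1 hij
    exact Finset.sum_pos' (fun _ _ => sq_nonneg _)
      ⟨α, Finset.mem_univ _, by have := sub_ne_zero.2 hα; positivity⟩
  have one : ∀ z δ : ℝ, ∃ h, Sig (fun i c => lin (a i) c) gr (sc d (δ ^ 2 / N)) h ∧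
      h j = 1 ∧ h i = FreeGroup.of (z + δ) * (FreeGroup.of z)⁻¹ := by
    intro z δ
    let u : Fin d → ℝ := fun α => δ / N * (a i α - a j α)
    let c : Col d := (z - ∑ α, u α * a j α, u)
    have e1 : lin (a j) c = z := by simp [c, lin_apply]
    have e2 : lin (a i) c = z + δ := by
      simp only [c, lin_apply]
      have : ∑ α, u α * a i α - ∑ α, u α * a j α = δ / N * N := by
        rw [← Finset.sum_sub_distrib, hN, Finset.mul_sum]
        refine Finset.sum_congr rfl fun α _ => ?_
        simp only [u]; ring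
      rw [div_mul_cancel₀ _ hN0.ne'] at this
      linarith
    have e3 : sz c = δ ^ 2 / N := by
      simp only [sz, c, u, mul_pow, ← Finset.mul_sum, ← hN]
      field_simp
    have h1 := sig_word (fun i c => lin (a i) c) gr (c :: pad c)
    rw [List.map_cons, List.sum_cons, gram_pad, e3] at h1
    have := h1.mul (Sig.diag (word (fun c => lin (a j) c) (c :: pad c))⁻¹)
    rw [add_zero] at this
    refine ⟨_, this, by simp, ?_⟩
    have e4 : word (fun c => lin (a i) c) (pad c) = word (fun c => lin (a j) c) (pad c) :=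
      word_congr (pad_lin c (δ / N) fun α => rfl)
    simp [e1, e2, e4]
  have many : ∀ (δ : ℝ) (n : ℕ), ∃ h, Sig (fun i c => lin (a i) c) gr (sc d (n * (δ ^ 2 / N))) h ∧
      h j = 1 ∧ h i = FreeGroup.of (n * δ) * (FreeGroup.of 0)⁻¹ := by
    intro δ n
    induction n with
    | zero => exact ⟨_, by simpa using Sig.diag 1, rfl, by simp⟩
    | succ n ih =>
      obtain ⟨h, hh, e1, e2⟩ := ih
      obtain ⟨h', hh', e1', e2'⟩ := one (n * δ) δ
      have := hh'.mul hh
      rw [← map_add] at this
      refine ⟨h' * h, ?_, by simp [e1, e1'], ?_⟩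
      · convert this using 2
        push_cast; ring
      · simp [e2, e2', add_mul]
  obtain ⟨n, hn⟩ := exists_nat_ge (max 1 (y ^ 2 / N / η))
  have h1 : (1 : ℝ) ≤ n := le_trans (le_max_left _ _) hn
  have h2 : y ^ 2 / N ≤ n * η := by
    have := le_trans (le_max_right _ _) hn
    rwa [div_le_iff₀ hη] at this
  obtain ⟨h, hh, e1, e2⟩ := many (y / n) n
  refine ⟨_, by positivity, ?_, h, hh, e1, ?_⟩
  · calc (n : ℝ) * ((y / n) ^ 2 / N) = y ^ 2 / N / n := by field_simp
      _ ≤ η := by rw [div_le_iff₀ (by positivity)]; linarith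
  · rw [e2, mul_div_cancel₀ _ (by positivity)]

lemma gram_flat_pad (L : List (Col d)) :
    (L.map gr).sum + ((L.flatMap pad).map gr).sum = sc d (L.map sz).sum := by
  induction L with
  | nil => simp
  | cons c L ih =>
    simp only [List.map_cons, List.sum_cons, List.flatMap_cons, List.map_append, List.sum_append,
      map_add, ← ih, ← gram_pad]
    abel

lemma sig_ratio {k : ℕ} (h : Ratio (fun i c => lin (a i) c) gr (sc d) sz k) (γ η : ℝ)
    (hγ : 0 < γ) (hη : 0 < η) : ∃ δ, 0 ≤ δ ∧ δ ≤ η ∧ ∃ b σ,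
      Sig (fun i c => lin (a i) c) gr (sc d δ) b ∧ Sig (fun i c => lin (a i) c) gr (sc d (δ + γ)) σ
      ∧ ∀ i, b i * (σ i)⁻¹ ∈ lcs ⊤ k := by
  obtain ⟨b, σ, γ0, hγ0, e, hb, hw⟩ := h (η / γ) (by positivity)
  set s := √(γ / γ0)
  have hs : s ^ 2 = γ / γ0 := Real.sq_sqrt (by positivity)
  have hg : ∀ L : List (Col d), ((L.map (s • ·)).map gr).sum = s ^ 2 • (L.map gr).sum := by
    intro L
    induction L with
    | nil => simp
    | cons c L ih => simp only [List.map_cons, List.sum_cons, ih, gr_smul, smul_add]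
  have hz : ∀ L : List (Col d), ((L.map (s • ·)).map sz).sum = s ^ 2 * (L.map sz).sum := by
    intro L
    rw [← tr_sum_gr, hg, map_smul, tr_sum_gr, smul_eq_mul]
  have hwd : ∀ i (L : List (Col d)), word (fun c => lin (a i) c) (L.map (s • ·)) =
      FreeGroup.map (s * ·) (word (fun c => lin (a i) c) L) := by
    intro i L
    induction L with
    | nil => simp
    | cons c L ih => simp [ih]
  set b' := b.map (s • ·)
  set σ' := σ.map (s • ·)
  have h1 := sig_word (fun i c => lin (a i) c) gr (b' ++ b'.flatMap pad)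
  have h2 := sig_word (fun i c => lin (a i) c) gr (σ' ++ b'.flatMap pad)
  rw [List.map_append, List.sum_append, gram_flat_pad] at h1
  have e' : (σ'.map gr).sum = (b'.map gr).sum + sc d γ := by
    rw [hg, hg, e, smul_add, smul_sc, hs, div_mul_cancel₀ _ hγ0.ne']
  rw [List.map_append, List.sum_append, e', add_right_comm, gram_flat_pad, ← map_add] at h2
  refine ⟨_, List.sum_nonneg ?_, ?_, _, _, h1, h2, fun i => ?_⟩
  · intro x hx
    obtain ⟨c, _, rfl⟩ := List.mem_map.1 hx
    exact sz_nonneg c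
  · rw [hz, hs]
    calc γ / γ0 * (b.map sz).sum ≤ γ / γ0 * (η / γ * γ0) := by gcongr
      _ = η := by field_simp
  · simp only [word_append, mul_inv_rev, mul_assoc, mul_inv_cancel_left]
    rw [hwd, hwd, ← map_inv, ← map_mul]
    apply lcs_mono (le_top (a := (FreeGroup.map (s * ·)).range))
    rw [← map_lcs_top]
    exact ⟨_, hw i, rfl⟩

lemma sep_of_ne {x y : Fin d → ℝ} (hxy : x ≠ y) (h : ℝ) :
    ∃ v : Col d, lin x v = h ∧ lin y v = 0 := by
  obtain ⟨α, hα⟩ := Function.ne_iff.1 hxy
  have := sub_ne_zero.2 hα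
  refine ⟨(-(h / (x α - y α) * y α), Pi.single α (h / (x α - y α))), ?_, ?_⟩
  · simp [lin_apply, Pi.single_apply]
    field_simp
    ring
  · simp [lin_apply, Pi.single_apply]

theorem words_of_tensor [Fintype I] (ha : Function.Injective a) (h : RealTensor a)
    {κ : Type*} [Finite κ] (χ : List ℝ → κ) :
    ∃ L : List (Col d), (L.map gr).sum = sc d 1 ∧ ∃ c, ∀ i, χ (L.map (lin (a i))) = c := by
  classical
  have hr := ratio_one ((lev_three h).final fun i j hij => sep_of_ne (ha.ne hij.symm))
  refine ramsey_of_free (fun i c => lin (a i) c) gr (sc d) 0 ?_ ?_ sig_pair ?_ ?_ χ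
  · exact fun y => ⟨(y, 0), by ext; simp [gr], by simp⟩
  · intro t ht
    obtain ⟨L, hL⟩ := exists_gram (d := d) t ht
    exact ⟨_, hL ▸ sig_word _ _ L⟩
  · exact fun i j hij y η hη => sig_step (ha.ne hij) y η hη
  · exact fun k γ η hγ hη => sig_ratio (hr.all k) γ η hγ hη

end

end Vale.Agent.P058
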