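import Vale.Agent.P058.Defs
import Vale.Agent.P058.Suff
import Mathlib.LinearAlgebra.Basis.VectorSpace

/-!
Geometric part: the tensor condition over the reals is equivalent to the Ramsey property, and
subtransitive sets satisfy it.
-/

namespace Vale.Agent.P058

open TensorProduct

noncomputable section

abbrev E (d : ℕ) := EuclideanSpace ℝ (Fin d)

variable {d : ℕ}

/-- the family of coordinate vectors of a finite set -/
def fam (A : Finset (E d)) : A → Fin d → ℝ := fun x α => x.1 α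

lemma fam_inj (A : Finset (E d)) : Function.Injective (fam A) := by
  intro x y h
  ext α
  exact congrFun h α

def vecOf (n : ℕ) (w : List ℝ) : E n := WithLp.toLp 2 fun k => w.getD k 0

lemma sum_gr_apply (L : List (Col d)) (α β : Fin d) :
    (L.map gr).sum α β = (L.map fun c => c.2 α * c.2 β).sum := by
  induction L with
  | nil => simp
  | cons c L ih => simp [ih, gr]

lemma sum_sq_lin (L : List (Col d)) (x y : Fin d → ℝ) :
    (L.map fun c => (lin x c - lin y c) ^ 2).sum =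
      ∑ α, ∑ β, (x α - y α) * (x β - y β) * (L.map gr).sum α β := by
  induction L with
  | nil => simp
  | cons c L ih =>
    simp only [List.map_cons, List.sum_cons, ih, Pi.add_apply, mul_add, Finset.sum_add_distrib,
      gr]
    congr 1
    simp only [lin_apply]
    rw [add_sub_add_left_eq_sub, ← Finset.sum_sub_distrib, sq, Finset.sum_mul_sum]
    refine Finset.sum_congr rfl fun α _ => Finset.sum_congr rfl fun β _ => by ring

theorem ramsey_of_real (A : Finset (E d)) (h : RealTensor (fam A)) : IsRamsey A := by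
  classical
  intro r _
  by_contra hcon
  push Not at hcon
  have hb : ∀ D : ℕ, ∃ c : E (D + 1) → Fin r, ∀ f : E d → E (D + 1), PreservesDist A f →
      ∀ k, ∃ a ∈ A, c (f a) ≠ k := fun D => hcon (D + 1) (by omega)
  choose bad hbad using hb
  obtain ⟨L, hL, c, hc⟩ := words_of_tensor (fam_inj A) h
    (fun w : List ℝ => bad w.length (vecOf (w.length + 1) (0 :: w)))
  let f : E d → E (L.length + 1) := fun x => vecOf _ (0 :: L.map (lin fun α => x α))
  have hf : PreservesDist A f := by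
    intro x _ y _
    rw [EuclideanSpace.dist_eq, EuclideanSpace.dist_eq]
    congr 1
    have := sum_sq_lin L (fun α => x α) (fun α => y α)
    rw [hL] at this
    simp only [sc_apply, mul_ite, mul_one, mul_zero, Finset.sum_ite_eq, Finset.mem_univ,
      if_true] at this
    simp only [Real.dist_eq, sq_abs]
    rw [Fin.sum_univ_succ]
    simp only [sq (x _ - y _), ← this, f, vecOf]
    rw [← Fin.sum_univ_fun_getElem]
    simp
  obtain ⟨x, hx, hne⟩ := hbad _ f hf c
  apply hne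
  have key : ∀ (n : ℕ) (w : List ℝ), w.length = n →
      bad w.length (vecOf (w.length + 1) (0 :: w)) = bad n (vecOf (n + 1) (0 :: w)) := by
    rintro n w rfl; rfl
  have := hc ⟨x, hx⟩
  rw [key L.length _ (List.length_map _)] at this
  exact this

/-- the sum of the squares of the coordinates, as a tensor -/
def TT {D : ℕ} (x : E D) : ℝ ⊗[ℚ] ℝ := ∑ k, x k ⊗ₜ[ℚ] x k

def quad (x : Fin d → ℝ) (P : Option (Fin d) → Option (Fin d) → ℝ ⊗[ℚ] ℝ) : ℝ ⊗[ℚ] ℝ :=
  ∑ o, ∑ o', (hom x o ⊗ₜ[ℚ] hom x o') * P o o'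

lemma exists_frame {D : ℕ} {I : Type*} [Fintype I] (a : I → E d) (f : I → E D) (i0 : I)
    (h : ∀ i j, dist (f i) (f j) = dist (a i) (a j)) :
    ∃ (φ : E d →ₗ[ℝ] E D) (ψ : E d →ₗ[ℝ] E d),
      (∀ v w, inner ℝ (φ v) (φ w) + inner ℝ (ψ v) (ψ w) = inner ℝ v w) ∧
      ∀ i, φ (a i - a i0) = f i - f i0 ∧ ψ (a i - a i0) = 0 := by
  classical
  have hin : ∀ i j, inner ℝ (f i - f i0) (f j - f i0) = inner ℝ (a i - a i0) (a j - a i0) := by
    intro i j
    rw [real_inner_eq_norm_mul_self_add_norm_mul_self_sub_norm_sub_mul_self_div_two,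
      real_inner_eq_norm_mul_self_add_norm_mul_self_sub_norm_sub_mul_self_div_two]
    simp only [sub_sub_sub_cancel_right, ← dist_eq_norm, h]
  let al : (I → ℝ) →ₗ[ℝ] E d := Fintype.linearCombination ℝ fun i => a i - a i0
  let al' : (I → ℝ) →ₗ[ℝ] E D := Fintype.linearCombination ℝ fun i => f i - f i0
  have hal : ∀ c c', inner ℝ (al' c) (al' c') = inner ℝ (al c) (al c') := by
    intro c c'
    simp only [al, al', Fintype.linearCombination_apply, sum_inner, inner_sum,
      real_inner_smul_left, real_inner_smul_right, hin]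
  obtain ⟨g, hg⟩ := al.rangeRestrict.exists_rightInverse_of_surjective al.range_rangeRestrict
  have hg' : ∀ v : al.range, al (g v) = v := fun v => congrArg Subtype.val (congr($hg v))
  let K := LinearMap.range al
  refine ⟨al' ∘ₗ g ∘ₗ (K.orthogonalProjectionOnto : E d →ₗ[ℝ] K),
    LinearMap.id - (K.starProjection : E d →ₗ[ℝ] E d), fun v w => ?_, fun i => ?_⟩
  · simp only [LinearMap.comp_apply, hal, hg', LinearMap.sub_apply, LinearMap.id_apply,
      ContinuousLinearMap.coe_coe]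
    change inner ℝ (K.starProjection v) (K.starProjection w) + _ = _
    have h1 := K.starProjection_inner_eq_zero v _ (K.starProjection_apply_mem w)
    have h2 := K.starProjection_inner_eq_zero w _ (K.starProjection_apply_mem v)
    rw [real_inner_comm] at h2
    rw [inner_sub_right, h1]
    rw [inner_sub_right] at h2
    rw [inner_sub_left]
    linarith
  · have hm : a i - a i0 = al (Pi.single i 1) := by simp [al]
    have hK : a i - a i0 ∈ K := ⟨_, hm.symm⟩
    have hp : K.starProjection (a i - a i0) = a i - a i0 := K.starProjection_eq_self_iff.2 hK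
    refine ⟨?_, by simp only [LinearMap.sub_apply, LinearMap.id_apply,
      ContinuousLinearMap.coe_coe, hp, sub_self]⟩
    have hm' : f i - f i0 = al' (Pi.single i 1) := by simp [al']
    rw [hm', ← sub_eq_zero, LinearMap.comp_apply, ← map_sub, ← inner_self_eq_zero (𝕜 := ℝ), hal,
      inner_self_eq_zero, map_sub, ← hm, LinearMap.comp_apply, hg', sub_eq_zero]
    exact hp

lemma quad_cols {κ : Type*} [Fintype κ] (c : κ → Option (Fin d) → ℝ) (x : Fin d → ℝ) :
    quad x (fun o o' => ∑ k, c k o ⊗ₜ[ℚ] c k o') =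
      ∑ k, (∑ o, hom x o * c k o) ⊗ₜ[ℚ] (∑ o, hom x o * c k o) := by
  simp only [quad, Finset.mul_sum, Algebra.TensorProduct.tmul_mul_tmul, sum_tmul, tmul_sum]
  rw [Finset.sum_comm]
  conv_rhs => rw [Finset.sum_comm]
  refine Finset.sum_congr rfl fun o _ => ?_
  rw [Finset.sum_comm]

lemma exists_mat {D : ℕ} {I : Type*} [Fintype I] (a : I → E d) (f : I → E D) (i0 : I)
    (h : ∀ i j, dist (f i) (f j) = dist (a i) (a j)) :
    ∃ U : Option (Fin d) → Option (Fin d) → ℝ ⊗[ℚ] ℝ,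
      (∀ i, quad (fun α => a i α) U = TT (f i)) ∧
      ∀ α β, Algebra.TensorProduct.lmul' ℚ (U (some α) (some β)) = if α = β then 1 else 0 := by
  classical
  obtain ⟨φ, ψ, h1, h2⟩ := exists_frame a f i0 h
  let e : Fin d → E d := fun α => EuclideanSpace.single α 1
  have he : ∀ x : E d, ∑ α, x α • e α = x := by
    intro x; ext β; simp [e, Pi.single_apply]
  let c : Fin D ⊕ Fin d → Option (Fin d) → ℝ := Sum.elim
    (fun k o => o.elim (f i0 k - φ (a i0) k) fun α => φ (e α) k)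
    (fun k o => o.elim (- ψ (a i0) k) fun α => ψ (e α) k)
  refine ⟨fun o o' => ∑ k, c k o ⊗ₜ[ℚ] c k o', fun i => ?_, fun α β => ?_⟩
  · rw [quad_cols, Fintype.sum_sum_type]
    have e1 : ∀ k, ∑ o, hom (fun α => a i α) o * c (Sum.inl k) o = f i k := by
      intro k
      have := congrArg (fun z => z k) (h2 i).1
      have h3 := congrArg (fun z => φ z k) (he (a i))
      simp only [map_sub, PiLp.sub_apply] at this
      simp [Fintype.sum_option, hom, c] at h3 ⊢
      linarith
    have e2 : ∀ k, ∑ o, hom (fun α => a i α) o * c (Sum.inr k) o = 0 := by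
      intro k
      have := congrArg (fun z => z k) (h2 i).2
      have h3 := congrArg (fun z => ψ z k) (he (a i))
      simp only [map_sub, PiLp.sub_apply, PiLp.zero_apply] at this
      simp [Fintype.sum_option, hom, c] at h3 ⊢
      linarith
    simp [e1, e2, TT]
  · have := h1 (e α) (e β)
    simp only [PiLp.inner_apply] at this
    simp only [Fintype.sum_sum_type, c, Sum.elim_inl, Sum.elim_inr, Option.elim_some]
    simp [e] at this ⊢
    simpa [mul_comm, eq_comm] using this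

lemma quad_add (x : Fin d → ℝ) (P P' : Option (Fin d) → Option (Fin d) → ℝ ⊗[ℚ] ℝ) :
    quad x (P + P') = quad x P + quad x P' := by
  simp [quad, mul_add, Finset.sum_add_distrib]

lemma quad_smul (x : Fin d → ℝ) (q : ℚ) (P : Option (Fin d) → Option (Fin d) → ℝ ⊗[ℚ] ℝ) :
    quad x (q • P) = q • quad x P := by
  simp [quad, Finset.smul_sum]

def quadL (x : Fin d → ℝ) : (Option (Fin d) → Option (Fin d) → ℝ ⊗[ℚ] ℝ) →ₗ[ℚ] ℝ ⊗[ℚ] ℝ where
  toFun := quad x
  map_add' := quad_add x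
  map_smul' := quad_smul x

def e00 (t : ℝ ⊗[ℚ] ℝ) : Option (Fin d) → Option (Fin d) → ℝ ⊗[ℚ] ℝ :=
  fun o o' => o.elim (o'.elim t fun _ => 0) fun _ => 0

lemma quad_e00 (x : Fin d → ℝ) (t : ℝ ⊗[ℚ] ℝ) : quad x (e00 t) = t := by
  simp [quad, e00, Fintype.sum_option, hom, ← Algebra.TensorProduct.one_def]

def blockL : (Option (Fin d) → Option (Fin d) → ℝ ⊗[ℚ] ℝ) →ₗ[ℚ] (Fin d → Fin d → ℝ) where
  toFun P α β := Algebra.TensorProduct.lmul' ℚ (P (some α) (some β))
  map_add' P P' := by ext; simp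
  map_smul' q P := by ext; simp

lemma floor_parity {s : ℕ} (u v : Fin s → ℚ) (hs : 0 < s)
    (h : ∀ i, (⌊u i * s⌋ : ZMod (2 * s)) = (⌊v i * s⌋ : ZMod (2 * s))) :
    ∑ i, u i - ∑ i, v i ≠ 1 := by
  intro h1
  have hs' : (0 : ℚ) < s := by positivity
  have : ∀ i, ∃ m : ℤ, |u i - v i - 2 * m| < 1 / s := by
    intro i
    obtain ⟨m, hm⟩ := (ZMod.intCast_eq_intCast_iff_dvd_sub _ _ _).1 (h i).symm
    refine ⟨m, ?_⟩
    have hm' : ((⌊u i * s⌋ : ℤ) : ℚ) - (⌊v i * s⌋ : ℤ) = 2 * s * m := by exact_mod_cast hm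
    have a1 := Int.floor_le (u i * s)
    have a2 := Int.lt_floor_add_one (u i * s)
    have a3 := Int.floor_le (v i * s)
    have a4 := Int.lt_floor_add_one (v i * s)
    rw [lt_div_iff₀ hs', ← abs_of_pos hs', ← abs_mul, abs_lt]
    constructor <;> nlinarith
  choose m hm using this
  have h2 : |∑ i, (u i - v i - 2 * m i)| < 1 := by
    refine lt_of_le_of_lt (Finset.abs_sum_le_sum_abs _ _) ?_
    have : Nonempty (Fin s) := ⟨⟨0, hs⟩⟩
    refine lt_of_lt_of_le (Finset.sum_lt_sum_of_nonempty Finset.univ_nonempty fun i _ => hm i) ?_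
    simp [hs'.ne']
  rw [Finset.sum_sub_distrib, Finset.sum_sub_distrib, h1, ← Finset.mul_sum, ← Int.cast_sum] at h2
  have h3 : |1 - 2 * ∑ i, m i| < 1 := by exact_mod_cast h2
  rw [abs_lt] at h3
  omega

theorem real_of_ramsey (A : Finset (E d)) (hA : A.Nonempty) (h : IsRamsey A) :
    RealTensor (fam A) := by
  classical
  by_contra hcon
  let Φ : (Option (Fin d) → Option (Fin d) → ℝ ⊗[ℚ] ℝ) →ₗ[ℚ]
      (A → ℝ ⊗[ℚ] ℝ) × (Fin d → Fin d → ℝ) :=
    (LinearMap.pi fun i => quadL (fam A i)).prod blockL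
  let one : Fin d → Fin d → ℝ := fun α β => if α = β then 1 else 0
  have hn : ((0, one) : (A → ℝ ⊗[ℚ] ℝ) × (Fin d → Fin d → ℝ)) ∉ LinearMap.range Φ := by
    rintro ⟨P, hP⟩
    exact hcon ⟨P, fun i => congrFun (congrArg Prod.fst hP) i,
      fun α β => congrFun (congrFun (congrArg Prod.snd hP) α) β⟩
  obtain ⟨Λ, hΛ0, hΛ1⟩ := LinearMap.exists_extend_of_notMem
    (0 : LinearMap.range Φ →ₗ[ℚ] ℚ) hn (-1)
  have hΛ : ∀ P, Λ (Φ P) = 0 := fun P => congr($hΛ0 ⟨Φ P, P, rfl⟩)
  let μ : A → ℝ ⊗[ℚ] ℝ → ℚ := fun i t => Λ (Pi.single i t, 0)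
  have hμ : ∀ (z : A → ℝ ⊗[ℚ] ℝ) G, Λ (z, G) = ∑ i, μ i (z i) + Λ (0, G) := by
    intro z G
    rw [← map_sum, ← map_add]
    congr 1
    ext1
    · simp only [Prod.fst_add, Prod.fst_sum, Finset.univ_sum_single, add_zero]
    · simp [Prod.snd_sum]
  have hμ0 : ∀ t, ∑ i, μ i t = 0 := by
    intro t
    have := hΛ (e00 t)
    have e : Φ (e00 t) = (fun _ => t, 0) := by
      ext1
      · ext1 i; exact quad_e00 _ _
      · ext α β; simp [Φ, blockL, e00]
    rw [e, hμ] at this
    simpa [← Prod.zero_eq_mk] using this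
  set s := Fintype.card A
  have hs : 0 < s := by simpa [s] using hA.card_pos
  have : NeZero (2 * s) := ⟨by omega⟩
  let eA : Fin s ≃ A := (Fintype.equivFin A).symm
  let κ := Fin s → ZMod (2 * s)
  obtain ⟨D, -, hD⟩ := h (Fintype.card κ + 2) (by omega)
  let col : E D → κ := fun x i => (⌊μ (eA i) (TT x) * s⌋ : ZMod (2 * s))
  obtain ⟨f, hf, k, hk⟩ := hD fun x => Fin.castAdd 2 (Fintype.equivFin κ (col x))
  obtain ⟨x0, hx0⟩ := hA
  have hcol : ∀ x ∈ A, col (f x) = col (f x0) := by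
    intro x hx
    have := (hk x hx).trans (hk x0 hx0).symm
    exact (Fintype.equivFin κ).injective (Fin.castAdd_injective _ _ this)
  obtain ⟨U, hU1, hU2⟩ := exists_mat (fun x : A => x.1) (fun x => f x.1) ⟨x0, hx0⟩
    fun i j => hf _ i.2 _ j.2
  have := hΛ U
  have e : Φ U = (fun i => TT (f i.1), one) := by
    ext1
    · ext1 i; exact hU1 i
    · ext α β; exact hU2 α β
  rw [e, hμ, hΛ1] at this
  refine floor_parity (fun i => μ (eA i) (TT (f (eA i).1))) (fun i => μ (eA i) (TT (f x0))) hs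
    (fun i => congrFun (hcol _ (eA i).2) i) ?_
  rw [eA.sum_comp (fun i => μ i (TT (f i.1))), eA.sum_comp (fun i => μ i (TT (f x0))), hμ0]
  linarith

instance finite_isom {n : ℕ} (X : Finset (E n)) : Finite (X ≃ᵢ X) :=
  Finite.of_injective (fun g : X ≃ᵢ X => (g : X → X)) DFunLike.coe_injective

lemma exists_isom {n : ℕ} {X : Finset (E n)} (hX : IsTransitive X) (x y : X) :
    ∃ γ : X ≃ᵢ X, γ x = y := by
  obtain ⟨g, hg, hxy⟩ := hX x x.2 y y.2
  have hm : ∀ z : E n, z ∈ X ↔ g z ∈ X := by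
    intro z
    rw [← Finset.mem_coe, ← Finset.mem_coe (a := g z)]
    conv_rhs => rw [← hg]
    exact (g.injective.mem_set_image).symm
  refine ⟨⟨g.toEquiv.subtypeEquiv hm, Isometry.of_dist_eq fun u v => ?_⟩, Subtype.ext hxy⟩
  exact g.dist_eq u.1 v.1

lemma sum_isom_eq {n : ℕ} {X : Finset (E n)} (hX : IsTransitive X) [Fintype (X ≃ᵢ X)]
    {M : Type*} [AddCommMonoid M] (φ : X → M) (x y : X) :
    ∑ γ : X ≃ᵢ X, φ (γ x) = ∑ γ : X ≃ᵢ X, φ (γ y) := by
  obtain ⟨δ, rfl⟩ := exists_isom hX x y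
  exact (Equiv.sum_comp (Equiv.mulRight δ) (fun γ : X ≃ᵢ X => φ (γ x))).symm.trans
    (by simp)

theorem real_of_subtransitive (A : Finset (E d)) (hA : A.Nonempty) (h : IsSubtransitive A) :
    RealTensor (fam A) := by
  classical
  obtain ⟨n, X, hX, f, hf, hfX⟩ := h
  obtain ⟨x0, hx0⟩ := hA
  have := Fintype.ofFinite (X ≃ᵢ X)
  let f' : A → X := fun x => ⟨f x.1, hfX _ x.2⟩
  have : ∀ γ : X ≃ᵢ X, ∃ U : Option (Fin d) → Option (Fin d) → ℝ ⊗[ℚ] ℝ,
      (∀ i, quad (fam A i) U = TT (γ (f' i)).1) ∧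
      ∀ α β, Algebra.TensorProduct.lmul' ℚ (U (some α) (some β)) = if α = β then 1 else 0 :=
    fun γ => exists_mat (fun x : A => x.1) (fun x => (γ (f' x)).1) ⟨x0, hx0⟩
      fun i j => (γ.dist_eq _ _).trans (hf _ i.2 _ j.2)
  choose U hU1 hU2 using this
  have hN : (Fintype.card (X ≃ᵢ X) : ℚ) ≠ 0 := by simp
  let C := ∑ γ : X ≃ᵢ X, TT (γ (f' ⟨x0, hx0⟩)).1
  refine ⟨(Fintype.card (X ≃ᵢ X) : ℚ)⁻¹ • (∑ γ, U γ - e00 C), fun i => ?_, fun α β => ?_⟩
  · change quadL (fam A i) _ = 0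
    rw [map_smul, map_sub, map_sum]
    have : ∑ γ, quadL (fam A i) (U γ) = C :=
      (Finset.sum_congr rfl fun γ _ => hU1 γ i).trans
        (sum_isom_eq hX (fun z => TT z.1) _ _)
    rw [this, show quadL (fam A i) (e00 C) = C from quad_e00 _ _, sub_self, smul_zero]
  · simp only [Pi.smul_apply, Pi.sub_apply, Finset.sum_apply, map_smul, map_sum, hU2,
      e00, Option.elim_some, sub_zero, Finset.sum_const, Finset.card_univ]
    split_ifs
    · simp [Rat.smul_def]
    · simp

end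

end Vale.Agent.P058
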