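import Vale.Agent.P058.Descent
import Mathlib.Algebra.AlgebraicCard
import Mathlib.Topology.Algebra.Module.Cardinality
import Mathlib.RingTheory.Algebraic.Integral

/-!
Spherical sets with at most five points are Ramsey; a transcendental kite is not subtransitive.
-/

namespace Vale.Agent.P058

open TensorProduct

noncomputable section

variable {d : ℕ}

def cv (c : Col d) : Option (Fin d) → ℝ := fun o => o.elim c.1 c.2

lemma quad_pure (c c' : Col d) (x : Fin d → ℝ) :
    quad x (fun o o' => cv c o ⊗ₜ[ℚ] cv c' o') = lin x c ⊗ₜ[ℚ] lin x c' := by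
  have e : ∀ c : Col d, lin x c = ∑ o, hom x o * cv c o := by
    intro c; simp [lin_apply, Fintype.sum_option, hom, cv, mul_comm]
  simp only [e, quad, Algebra.TensorProduct.tmul_mul_tmul, sum_tmul, tmul_sum]
  rw [Finset.sum_comm]

lemma real_of_sep {I : Type*} [Fintype I] (a : I → Fin d → ℝ) (z : Fin d → ℝ) (R : ℝ)
    (hz : ∀ i, ∑ α, (a i α - z α) ^ 2 = R)
    (h : ∀ i, ∃ c c' : Col d, lin (a i) c = 1 ∧ lin (a i) c' = 1 ∧
      ∀ j, j ≠ i → lin (a j) c = 0 ∨ lin (a j) c' = 0) : RealTensor a := by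
  classical
  choose c c' h1 h2 h3 using h
  let S : Option (Fin d) → Option (Fin d) → ℝ := fun o o' =>
    o.elim (o'.elim (∑ α, z α ^ 2 - R) fun β => -2 * z β)
      fun α => o'.elim 0 fun β => if α = β then 1 else 0
  let P0 : Option (Fin d) → Option (Fin d) → ℝ ⊗[ℚ] ℝ := fun o o' => S o o' ⊗ₜ[ℚ] 1
  have hP0 : ∀ i, Algebra.TensorProduct.lmul' (S := ℝ) ℚ (quad (a i) P0) = 0 := by
    intro i
    have := hz i
    simp only [sub_sq, Finset.sum_add_distrib, Finset.sum_sub_distrib] at this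
    simp [quad, P0, S, Fintype.sum_option, hom, ← sq]
    simp only [mul_assoc, mul_comm (z _)] at this ⊢
    linarith
  let r : I → ℝ ⊗[ℚ] ℝ := fun i => quad (a i) P0
  refine ⟨P0 - ∑ i, fun o o' => r i * (cv (c i) o ⊗ₜ[ℚ] cv (c' i) o'), fun j => ?_,
    fun α β => ?_⟩
  · change quadL (a j) _ = 0
    rw [map_sub, map_sum, sub_eq_zero, Finset.sum_eq_single j]
    all_goals
      have key : ∀ i, quadL (a j) (fun o o' => r i * (cv (c i) o ⊗ₜ[ℚ] cv (c' i) o')) =
          r i * (lin (a j) (c i) ⊗ₜ[ℚ] lin (a j) (c' i)) := by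
        intro i
        rw [← quad_pure]
        change quad _ _ = _
        simp only [quad, Finset.mul_sum, mul_left_comm (r i)]
    · rw [key, h1, h2, ← Algebra.TensorProduct.one_def, mul_one]; rfl
    · intro i _ hij
      rw [key]
      rcases h3 i j hij.symm with h | h <;> simp [h]
    · simp
  · simp only [Pi.sub_apply, Finset.sum_apply, map_sub, map_sum, map_mul, r, hP0]
    simp [P0, S]

lemma line_sep {u v x z : Fin d → ℝ} {R : ℝ} (hu : ∑ α, (u α - z α) ^ 2 = R)
    (hv : ∑ α, (v α - z α) ^ 2 = R) (hx : ∑ α, (x α - z α) ^ 2 = R) (hxu : x ≠ u) (hxv : x ≠ v) :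
    ∃ c : Col d, lin x c = 1 ∧ lin u c = 0 ∧ lin v c = 0 := by
  classical
  have hn : x - u ∉ Submodule.span ℝ {v - u} := by
    rw [Submodule.mem_span_singleton]
    rintro ⟨t, ht⟩
    have hx' : ∀ α, x α = u α + t * (v α - u α) := fun α => by
      have := congrFun ht α
      simp at this; linarith
    have e : (t ^ 2 - t) * ∑ α, (v α - u α) ^ 2 = 0 := by
      have : (t ^ 2 - t) * ∑ α, (v α - u α) ^ 2 = ∑ α, (x α - z α) ^ 2
          - t * ∑ α, (v α - z α) ^ 2 - (1 - t) * ∑ α, (u α - z α) ^ 2 := by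
        simp only [Finset.mul_sum, ← Finset.sum_sub_distrib, hx']
        exact Finset.sum_congr rfl fun α _ => by ring
      rw [this, hu, hv, hx]; ring
    rcases mul_eq_zero.1 e with e | e
    · have : t * (t - 1) = 0 := by linarith
      rcases mul_eq_zero.1 this with e | e
      · exact hxu (funext fun α => by rw [hx', e]; ring)
      · exact hxv (funext fun α => by rw [hx', sub_eq_zero.1 e]; ring)
    · rw [Finset.sum_eq_zero_iff_of_nonneg fun _ _ => sq_nonneg _] at e
      exact hxu (funext fun α => by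
        rw [hx', pow_eq_zero_iff (two_ne_zero) |>.1 (e α (Finset.mem_univ _))]; ring)
  obtain ⟨φ, h0, h1⟩ := LinearMap.exists_extend_of_notMem
    (0 : Submodule.span ℝ {v - u} →ₗ[ℝ] ℝ) hn 1
  have h0' : φ (v - u) = 0 := congr($h0 ⟨v - u, Submodule.mem_span_singleton_self _⟩)
  have e : ∀ y : Fin d → ℝ, lin y (-φ u, fun α => φ (Pi.single α 1)) = φ (y - u) := by
    intro y
    have : φ y = ∑ α, φ (Pi.single α 1) * y α := by
      conv_lhs => rw [← Finset.univ_sum_single y, map_sum]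
      refine Finset.sum_congr rfl fun α _ => ?_
      rw [mul_comm, ← smul_eq_mul, ← map_smul, ← Pi.single_smul, smul_eq_mul, mul_one]
    rw [lin_apply, map_sub, this]; ring
  exact ⟨_, by rw [e, h1], by rw [e, sub_self, map_zero], by rw [e, h0']⟩

theorem ramsey_of_card_le_five (A : Finset (E d)) (hA : A.card ≤ 5) (z : E d) (ρ : ℝ)
    (hz : ∀ a ∈ A, dist a z = ρ) : IsRamsey A := by
  classical
  have hz' : ∀ i : A, ∑ α, (fam A i α - z α) ^ 2 = ρ ^ 2 := by
    intro i
    rw [← hz i.1 i.2, EuclideanSpace.dist_sq_eq]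
    simp [fam, Real.dist_eq]
  refine ramsey_of_real A (real_of_sep (fam A) (fun α => z α) (ρ ^ 2) hz' fun i => ?_)
  rcases isEmpty_or_nonempty {j : A // j ≠ i} with hB | hB
  · exact ⟨(1, 0), (1, 0), by simp [lin_apply], by simp [lin_apply],
      fun j hj => (hB.false ⟨j, hj⟩).elim⟩
  · have hc : Fintype.card {j : A // j ≠ i} ≤ Fintype.card (Fin 4) := by
      simp; omega
    obtain ⟨e⟩ := Function.Embedding.nonempty_of_card_le hc
    let g := Function.invFun e
    have hg : Function.Surjective g := Function.invFun_surjective e.injective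
    have hne : ∀ k, fam A i ≠ fam A (g k).1 := fun k => (fam_inj A).ne (g k).2.symm
    obtain ⟨c, c1, c2, c3⟩ := line_sep (hz' (g 0).1) (hz' (g 1).1) (hz' i) (hne _) (hne _)
    obtain ⟨c', c1', c2', c3'⟩ := line_sep (hz' (g 2).1) (hz' (g 3).1) (hz' i) (hne _) (hne _)
    refine ⟨c, c', c1, c1', fun j hj => ?_⟩
    obtain ⟨k, hk⟩ := hg ⟨j, hj⟩
    have : j = (g k).1 := by rw [hk]
    rw [this]
    fin_cases k
    · exact Or.inl c2
    · exact Or.inl c3
    · exact Or.inr c2'
    · exact Or.inr c3'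

def kite (a b : ℝ) : Fin 4 → E 2 := ![!₂[-1, 0], !₂[1, 0], !₂[a, b], !₂[a, -b]]

lemma kite_not_sub (a b : ℝ) (ha : Transcendental ℚ a) (A : Finset (E 2))
    (hA : ∀ i, kite a b i ∈ A) : ¬ IsSubtransitive A := by
  classical
  rintro ⟨n, X, hX, f, hf, hfX⟩
  have := Fintype.ofFinite (X ≃ᵢ X)
  let f' : Fin 4 → X := fun i => ⟨f (kite a b i), hfX _ (hA i)⟩
  let y : Fin 4 → (X ≃ᵢ X) × Fin n → ℝ := fun i p => (p.1 (f' i)).1 p.2
  have hrel : ∀ p, y 2 p + y 3 p = y 0 p + y 1 p + a * (y 1 p - y 0 p) := by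
    rintro ⟨γ, k⟩
    obtain ⟨φ, ψ, -, h⟩ := exists_frame (kite a b) (fun i => (γ (f' i)).1) 0
      fun i j => (γ.dist_eq _ _).trans (hf _ (hA i) _ (hA j))
    have e : (kite a b 2 - kite a b 0) + (kite a b 3 - kite a b 0) =
        (1 + a) • (kite a b 1 - kite a b 0) := by
      ext α; fin_cases α <;> simp [kite]; ring
    have e2 := congrArg (fun v => φ v k) e
    simp only [map_add, map_smul, (h _).1, PiLp.add_apply, PiLp.sub_apply, PiLp.smul_apply,
      smul_eq_mul] at e2
    simp only [y]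
    linarith
  have hsum : ∀ (φ : ℝ → ℚ) i, ∑ p, φ (y i p) = ∑ p, φ (y 1 p) := by
    intro φ i
    simp only [Fintype.sum_prod_type, y]
    exact sum_isom_eq hX (fun x => ∑ k, φ (x.1 k)) _ _
  let w : (X ≃ᵢ X) × Fin n → ℝ := fun p => y 1 p - y 0 p
  have ha2 : a - 2 ≠ 0 := by
    intro h
    apply ha
    rw [sub_eq_zero.1 h]
    exact isAlgebraic_algebraMap (2 : ℚ)
  let U : Submodule ℚ ℝ := Submodule.span ℚ (Set.range w)
  let V : Submodule ℚ ℝ := Submodule.span ℚ (Set.range fun p => (a - 2) * w p)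
  have hw : ∀ p, w p ∈ V := by
    intro p0
    by_contra hn
    obtain ⟨τ, h0, h1⟩ := LinearMap.exists_extend_of_notMem (0 : V →ₗ[ℚ] ℚ) hn 1
    have h0' : ∀ p, τ ((a - 2) * w p) = 0 := fun p =>
      congr($h0 ⟨(a - 2) * w p, Submodule.subset_span ⟨p, rfl⟩⟩)
    have hz : ∀ p, τ (y 0 p) + τ (y 2 p) + τ (y 3 p) = 3 * τ (y 1 p) := by
      intro p
      have e : y 0 p + y 2 p + y 3 p = (3 : ℚ) • y 1 p + (a - 2) * w p := by
        simp only [w, Rat.smul_def]; push_cast; linarith [hrel p]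
      rw [← map_add, ← map_add, e, map_add, h0', map_smul, add_zero, smul_eq_mul]
    have hs : ∑ p, ((τ (y 0 p) - τ (y 1 p)) ^ 2 + (τ (y 2 p) - τ (y 1 p)) ^ 2
        + (τ (y 3 p) - τ (y 1 p)) ^ 2) = 0 := by
      have : ∀ p, (τ (y 0 p) - τ (y 1 p)) ^ 2 + (τ (y 2 p) - τ (y 1 p)) ^ 2
          + (τ (y 3 p) - τ (y 1 p)) ^ 2 = τ (y 0 p) ^ 2 + τ (y 2 p) ^ 2 + τ (y 3 p) ^ 2
            - 3 * τ (y 1 p) ^ 2 := by
        intro p
        linear_combination (-2 * τ (y 1 p)) * hz p
      simp only [this, Finset.sum_sub_distrib, Finset.sum_add_distrib, ← Finset.mul_sum,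
        hsum (fun t => τ t ^ 2)]
      ring
    rw [Finset.sum_eq_zero_iff_of_nonneg fun _ _ => by positivity] at hs
    have := hs p0 (Finset.mem_univ _)
    simp only [w, map_sub] at h1
    nlinarith [sq_nonneg (τ (y 2 p0) - τ (y 1 p0)), sq_nonneg (τ (y 3 p0) - τ (y 1 p0))]
  have hU : U ≠ ⊥ := by
    intro h
    have h1 : f (kite a b 1) = f (kite a b 0) := by
      ext k
      have : w (1, k) ∈ U := Submodule.subset_span ⟨_, rfl⟩
      rw [h, Submodule.mem_bot, sub_eq_zero] at this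
      exact this
    have h2 := hf _ (hA 1) _ (hA 0)
    rw [h1, dist_self, eq_comm, dist_eq_zero] at h2
    have := congrArg (fun v => v 0) h2
    norm_num [kite] at this
  have hV : ∀ v ∈ V, (a - 2)⁻¹ • v ∈ U := by
    intro v hv
    induction hv using Submodule.span_induction with
    | mem v hv =>
      obtain ⟨p, rfl⟩ := hv
      rw [smul_eq_mul, inv_mul_cancel_left₀ ha2]
      exact Submodule.subset_span ⟨p, rfl⟩
    | zero => simp
    | add v v' _ _ h h' => rw [smul_add]; exact U.add_mem h h'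
    | smul q v _ h => rw [smul_comm]; exact U.smul_mem _ h
  have hUV : U ≤ V := Submodule.span_le.2 (by rintro _ ⟨p, rfl⟩; exact hw p)
  have hint : IsIntegral ℚ (a - 2)⁻¹ := isIntegral_of_smul_mem_submodule U hU
    (Submodule.fg_span (Set.finite_range _)) _ fun v hv => hV v (hUV hv)
  apply ha
  have h3 : IsIntegral ℚ (a - 2) := (IsAlgebraic.inv_iff.1 hint.isAlgebraic).isIntegral
  have h4 : IsIntegral ℚ (2 : ℝ) := (isAlgebraic_algebraMap (2 : ℚ)).isIntegral
  simpa using (h3.add h4).isAlgebraic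

theorem exists_ramsey_not_subtransitive :
    ∃ A : Finset (E 2), A.card = 4 ∧ IsRamsey A ∧ ¬ IsSubtransitive A := by
  classical
  have hd := (Algebraic.countable ℚ ℝ).dense_compl ℝ
  obtain ⟨a, ha, ha1, ha2⟩ := hd.exists_between (show (-1 : ℝ) < 1 by norm_num)
  have hb : 0 < 1 - a ^ 2 := by nlinarith
  set b := √(1 - a ^ 2)
  have hb0 : 0 < b := Real.sqrt_pos.2 hb
  have hb2 : b ^ 2 = 1 - a ^ 2 := Real.sq_sqrt hb.le
  have hinj : Function.Injective (kite a b) := by
    intro i j h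
    have h0 := congrArg (fun v => v 0) h
    have h1 := congrArg (fun v => v 1) h
    fin_cases i <;> fin_cases j <;> simp [kite] at h0 h1 ⊢ <;> linarith
  have hc : (Finset.univ.image (kite a b)).card = 4 := by
    rw [Finset.card_image_of_injective _ hinj]; simp
  refine ⟨Finset.univ.image (kite a b), hc, ramsey_of_card_le_five _ (by omega) 0 1 ?_,
    kite_not_sub a b ha _ fun i => Finset.mem_image_of_mem _ (Finset.mem_univ _)⟩
  intro x hx
  obtain ⟨i, -, rfl⟩ := Finset.mem_image.1 hx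
  rw [EuclideanSpace.dist_eq, Real.sqrt_eq_one]
  fin_cases i <;> simp [kite, hb2]

end

end Vale.Agent.P058
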